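import Vale.Agent.P231.G.ParA

/-!
# Parallel fields and frames along a geodesic  (TASK)

`isPar_of_local`: the equation in one chart gives it in every chart: `tr e' = fderiv (e' ∘ e.symm) ∘ tr e` (`tr_tr`) near `t`, product rule and `chr_transform`
(`compat_eventually`, `tr_contDiffAt`, `hasDerivAt_chart`), as in `P255.geodesic_transform`.
`exists_par`: local existence for all initial values on a uniform interval: near `t₀`, in the chart `e = chartAt (γ t₀)`, solve the linear equation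
`Y' = -(chrL G (e γ t) (γ' t)) ∘ Y`, `Y t₁ = id`, for every `t₁` near `t₀` on the same small interval.  Either Picard-Lindelof (`IsPicardLindelof`, time dependent, Lipschitz constant a bound for
the operator norm), or `exists_flow` / `exists_flowN` for the autonomous field `(x, v, Y) ↦ (v, -chr x v v, -chrL x v ∘ Y)` near `(e (γ t₀), γ' t₀, id)` and `IsGeodesic` uniqueness.
Uniqueness on intervals: the difference `Z` of two parallel fields has `ip Z Z` constant.  Glue: the set of `t` such that a parallel field on an open interval containing `0, t` with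
value `w` at `0` exists is open and closed (`IsClopen.eq_univ`, or the `local_dep` pattern of `P255/Dep`), then define `X t` by choice.
`IsPar.ip_const`: `LocMetric.hasDerivAt_inner`, `ip_eq`, `is_const_of_deriv_eq_zero`.  `isPar_vel`: `hasDerivAt_geo`, `hasDerivAt_st_dep`.
`exists_frame`: an `ip`-orthonormal basis of the orthogonal complement of `v` (build an `InnerProductSpace.Core` on a type synonym, or conjugate by a square root: `LinearMap.BilinForm.exists_orthogonal_basis`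
for the restriction of the form to `ker (ip x v)`, of dimension `m`, then normalise); extend by `exists_par`.
`Fr.expand`: the `m + 1` pairwise orthogonal nonzero vectors are linearly independent, hence span (`basisOfLinearIndependentOfCardEqFinrank`).  This file holds one portion of the plan above.  Prefix helper names by `par_hb_`.
-/

namespace Vale.Agent.P231

open scoped ContDiff Manifold ENNReal Topology
open Vale.Agent.P255 Vale.Agent.P234 Set Filter Real

variable {E M : Type*} [NormedAddCommGroup E] [NormedSpace ℝ E] [FiniteDimensional ℝ E]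
  [TopologicalSpace M] [ChartedSpace E M] [IsManifold 𝓘(ℝ, E) ∞ M] [T2Space M] [CompactSpace M]
  {g : Metric E M} {m : ℕ} {x : M} {v : E}

/-- The parallel transport equation at one time. -/
def par_hb_At (g : Metric E M) (γ : ℝ → M) (X : ℝ → E) (t : ℝ) : Prop :=
  ∀ e ∈ atlas E M, γ t ∈ e.source → HasDerivAt (fun s => tr e (γ s) (X s))
    (-chr (g.g e) (e (γ t)) (deriv (e ∘ γ) t) (tr e (γ t) (X t))) t

theorem par_hb_lin {A : ℝ → E →L[ℝ] E} {t₀ δ : ℝ} (hδ : 0 < δ)
    (hA : ContinuousOn A (Icc (t₀ - δ) (t₀ + δ))) : ∃ ε > 0, ε ≤ δ ∧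
      ∀ t₁ ∈ Ioo (t₀ - ε) (t₀ + ε), ∀ w, ∃ y : ℝ → E, y t₁ = w ∧
        ∀ t ∈ Ioo (t₀ - ε) (t₀ + ε), HasDerivAt y (A t (y t)) t := by
  obtain ⟨K₀, hK₀⟩ := isCompact_Icc.exists_bound_of_continuousOn hA
  set K : ℝ := max K₀ 1 with hK
  have hK1 : 1 ≤ K := le_max_right _ _
  have hKb : ∀ t ∈ Icc (t₀ - δ) (t₀ + δ), ‖A t‖ ≤ K := fun t ht => (hK₀ t ht).trans (le_max_left _ _)
  have hε0 : 0 < min δ (1 / (4 * K)) := lt_min hδ (by positivity)
  refine ⟨min δ (1 / (4 * K)), hε0, min_le_left _ _, fun t₁ ht₁ w => ?_⟩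
  set ε := min δ (1 / (4 * K)) with hε
  have hεδ : ε ≤ δ := min_le_left _ _
  have hεK : 4 * K * ε ≤ 1 := by
    have : ε ≤ 1 / (4 * K) := min_le_right _ _
    rw [le_div_iff₀ (by positivity)] at this
    linarith
  have hsub : Icc (t₀ - ε) (t₀ + ε) ⊆ Icc (t₀ - δ) (t₀ + δ) :=
    Icc_subset_Icc (by linarith) (by linarith)
  have hpl : IsPicardLindelof (fun t y => A t y) (tmin := t₀ - ε) (tmax := t₀ + ε)
      ⟨t₁, Ioo_subset_Icc_self ht₁⟩ w ⟨‖w‖ + 1, by positivity⟩ 0
      ⟨K * (2 * ‖w‖ + 1), by positivity⟩ ⟨K, by positivity⟩ := by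
    refine ⟨fun t ht => ?_, fun y _ => ?_, fun t ht y hy => ?_, ?_⟩
    · refine ((A t).lipschitz.weaken ?_).lipschitzOnWith
      exact_mod_cast hKb t (hsub ht)
    · exact (hA.mono hsub).clm_apply continuousOn_const
    · have h1 : ‖y‖ ≤ 2 * ‖w‖ + 1 := by
        have h2 : ‖y - w‖ ≤ ‖w‖ + 1 := mem_closedBall_iff_norm.1 hy
        have h3 := norm_add_le (y - w) w
        rw [sub_add_cancel] at h3
        linarith
      exact ((A t).le_opNorm y).trans
        (mul_le_mul (hKb t (hsub ht)) h1 (norm_nonneg _) (by positivity))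
    · have h1 : max (t₀ + ε - t₁) (t₁ - (t₀ - ε)) ≤ 2 * ε :=
        max_le (by linarith [ht₁.1]) (by linarith [ht₁.2])
      change K * (2 * ‖w‖ + 1) * max (t₀ + ε - t₁) (t₁ - (t₀ - ε)) ≤ ‖w‖ + 1 - 0
      have h2 : K * (2 * ‖w‖ + 1) * max (t₀ + ε - t₁) (t₁ - (t₀ - ε)) ≤
          K * (2 * ‖w‖ + 1) * (2 * ε) := mul_le_mul_of_nonneg_left h1 (by positivity)
      have h3 : K * (2 * ‖w‖ + 1) * (2 * ε) = (4 * K * ε) * (‖w‖ + 1 / 2) := by ring
      have h4 : (4 * K * ε) * (‖w‖ + 1 / 2) ≤ 1 * (‖w‖ + 1 / 2) :=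
        mul_le_mul_of_nonneg_right hεK (by positivity)
      linarith
  obtain ⟨y, hy0, hy⟩ := hpl.exists_eq_forall_mem_Icc_hasDerivWithinAt₀
  exact ⟨y, hy0, fun t ht => (hy t (Ioo_subset_Icc_self ht)).hasDerivAt (Icc_mem_nhds ht.1 ht.2)⟩

theorem par_hb_of_chart {X : ℝ → E} {t : ℝ} {e : OpenPartialHomeomorph M E} (he : e ∈ atlas E M)
    (ht : g.geo x v t ∈ e.source) (h : HasDerivAt (fun s => tr e (g.geo x v s) (X s))
      (-chr (g.g e) (e (g.geo x v t)) (deriv (e ∘ g.geo x v) t) (tr e (g.geo x v t) (X t))) t) :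
    par_hb_At g (g.geo x v) X t := by
  intro e' he' ht'
  have hc := (g.continuous_geo x v).continuousAt (x := t)
  have hτ : ContDiffAt ℝ 2 (e' ∘ e.symm) (e (g.geo x v t)) :=
    (tr_contDiffAt he he' ht ht').of_le (by norm_cast)
  have hD : DifferentiableAt ℝ (fderiv ℝ (e' ∘ e.symm)) (e (g.geo x v t)) :=
    (hτ.fderiv_right (m := 1) (by norm_num)).differentiableAt (by simp)
  have hx := (g.hasDerivAt_st_dep x v he ht).1
  have h1 : HasDerivAt (fun s => fderiv ℝ (e' ∘ e.symm) (e (g.geo x v s)))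
      (fderiv ℝ (fderiv ℝ (e' ∘ e.symm)) (e (g.geo x v t)) (deriv (e ∘ g.geo x v) t)) t :=
    hD.hasFDerivAt.comp_hasDerivAt t hx
  have h2 := h1.clm_apply h
  have hy' : (e' ∘ e.symm) (e (g.geo x v t)) = e' (g.geo x v t) := by
    simp [e.left_inv ht]
  have h3 := chr_transform (g.loc he) (g.loc he') (e.map_source ht)
    (by rw [hy']; exact e'.map_source ht') hτ (g.compat_eventually he he' ht ht')
    (deriv (e ∘ g.geo x v) t) (tr e (g.geo x v t) (X t))
  rw [map_neg, h3, hy', ← tr_tr he he' ht ht', ← (hasDerivAt_chart he he' hc ht ht' hx).deriv] at h2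
  have h4 : (fun s => tr e' (g.geo x v s) (X s)) =ᶠ[𝓝 t]
      fun s => fderiv ℝ (e' ∘ e.symm) (e (g.geo x v s)) (tr e (g.geo x v s) (X s)) := by
    filter_upwards [hc.preimage_mem_nhds (e.open_source.mem_nhds ht),
      hc.preimage_mem_nhds (e'.open_source.mem_nhds ht')] with s hs hs'
    exact tr_tr he he' hs hs' _
  refine (h2.congr_of_eventuallyEq h4).congr_deriv ?_
  abel

theorem par_hb_local (g : Metric E M) (x : M) (v : E) (t₀ : ℝ) : ∃ ε > 0,
    ∀ t₁ ∈ Ioo (t₀ - ε) (t₀ + ε), ∀ w, ∃ X : ℝ → E, X t₁ = w ∧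
      ∀ t ∈ Ioo (t₀ - ε) (t₀ + ε), par_hb_At g (g.geo x v) X t := by
  set e := chartAt E (g.geo x v t₀) with hedef
  have he : e ∈ atlas E M := chart_mem_atlas E _
  have hc := g.continuous_geo x v
  obtain ⟨δ, hδ, hb⟩ := _root_.Metric.nhds_basis_closedBall.mem_iff.1
    (hc.continuousAt.preimage_mem_nhds (e.open_source.mem_nhds (mem_chart_source E (g.geo x v t₀))))
  rw [Real.closedBall_eq_Icc] at hb
  have hA : ContinuousOn (fun t => -chrL (g.g e) (e (g.geo x v t)) (deriv (e ∘ g.geo x v) t))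
      (Icc (t₀ - δ) (t₀ + δ)) := by
    intro t ht
    have h1 := g.hasDerivAt_st_dep x v he (hb ht)
    have h2 : ContinuousAt (chrL (g.g e)) (e (g.geo x v t)) :=
      ((g.loc he).loc_diff_chrL (e.map_source (hb ht))).continuousAt
    exact ((ContinuousAt.comp (f := e ∘ g.geo x v) h2 h1.1.continuousAt).clm_apply
      h1.2.continuousAt).neg.continuousWithinAt
  obtain ⟨ε, hε, hεδ, H⟩ := par_hb_lin hδ hA
  have hs : ∀ t ∈ Ioo (t₀ - ε) (t₀ + ε), g.geo x v t ∈ e.source := fun t ht =>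
    hb ⟨by linarith [ht.1], by linarith [ht.2]⟩
  refine ⟨ε, hε, fun t₁ ht₁ w => ?_⟩
  obtain ⟨y, hy0, hy⟩ := H t₁ ht₁ (tr e (g.geo x v t₁) w)
  refine ⟨fun t => trI e (g.geo x v t) (y t), by simp only [hy0, trI_tr he (hs t₁ ht₁)], fun t ht => ?_⟩
  refine par_hb_of_chart he (hs t ht) ?_
  rw [tr_trI he (hs t ht), ← chrL_apply]
  refine (hy t ht).congr_of_eventuallyEq ?_
  filter_upwards [isOpen_Ioo.mem_nhds ht] with s hs'
  exact tr_trI he (hs s hs') _

theorem par_hb_uniq {X Y : ℝ → E} {a b t₁ : ℝ} (hX : ∀ t ∈ Ioo a b, par_hb_At g (g.geo x v) X t)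
    (hY : ∀ t ∈ Ioo a b, par_hb_At g (g.geo x v) Y t) (h1 : t₁ ∈ Ioo a b) (h0 : X t₁ = Y t₁)
    {t : ℝ} (ht : t ∈ Ioo a b) : X t = Y t := by
  have key : ∀ s ∈ Ioo a b,
      HasDerivAt (fun r => g.ip (g.geo x v r) (X r - Y r) (X r - Y r)) 0 s := by
    intro s hs
    set e := chartAt E (g.geo x v s)
    have he : e ∈ atlas E M := chart_mem_atlas E _
    have hm : g.geo x v s ∈ e.source := mem_chart_source E _
    have h2 := (hX s hs e he hm).fun_sub (hY s hs e he hm)
    have h3 := (g.loc he).hasDerivAt_inner (x := e ∘ g.geo x v) (e.map_source hm)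
      (g.hasDerivAt_st_dep x v he hm).1 h2 h2
    have h4 : -chr (g.g e) (e (g.geo x v s)) (deriv (e ∘ g.geo x v) s) (tr e (g.geo x v s) (X s)) -
        -chr (g.g e) (e (g.geo x v s)) (deriv (e ∘ g.geo x v) s) (tr e (g.geo x v s) (Y s)) +
        chr (g.g e) ((e ∘ g.geo x v) s) (deriv (e ∘ g.geo x v) s)
          (tr e (g.geo x v s) (X s) - tr e (g.geo x v s) (Y s)) = 0 := by
      simp only [← chrL_apply, map_sub, Function.comp_apply]
      abel
    rw [h4] at h3
    simp only [map_zero, zero_apply, add_zero] at h3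
    refine h3.congr_of_eventuallyEq ?_
    filter_upwards [(g.continuous_geo x v).continuousAt.preimage_mem_nhds
      (e.open_source.mem_nhds hm)] with r hr
    rw [ip_eq g he hr, map_sub]
    rfl
  have h5 := isOpen_Ioo.is_const_of_deriv_eq_zero isPreconnected_Ioo
    (fun s hs => (key s hs).differentiableAt.differentiableWithinAt)
    (fun s hs => (key s hs).deriv) ht h1
  rw [h0, sub_self, map_zero] at h5
  by_contra hne
  exact (ip_pos g _ _ (sub_ne_zero.2 hne)).ne' h5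

theorem par_hb_congr {X Y : ℝ → E} {t : ℝ} {γ : ℝ → M} (h : par_hb_At g γ X t)
    (e : Y =ᶠ[𝓝 t] X) : par_hb_At g γ Y t := by
  intro c hc ht
  rw [e.self_of_nhds]
  refine (h c hc ht).congr_of_eventuallyEq ?_
  filter_upwards [e] with s hs
  rw [hs]

theorem par_hb_all (g : Metric E M) (x : M) (v w : E) (t : ℝ) : ∃ a b : ℝ, t ∈ Ioo a b ∧
    (0 : ℝ) ∈ Ioo a b ∧ ∃ X : ℝ → E, X 0 = w ∧ ∀ s ∈ Ioo a b, par_hb_At g (g.geo x v) X s := by
  set P : Set ℝ := {t | ∃ a b : ℝ, t ∈ Ioo a b ∧ (0 : ℝ) ∈ Ioo a b ∧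
    ∃ X : ℝ → E, X 0 = w ∧ ∀ s ∈ Ioo a b, par_hb_At g (g.geo x v) X s} with hP
  have ho : IsOpen P := isOpen_iff_mem_nhds.2 fun s ⟨a, b, hs, h⟩ =>
    mem_of_superset (isOpen_Ioo.mem_nhds hs) fun r hr => ⟨a, b, hr, h⟩
  have hc : IsClosed P := by
    refine isClosed_of_closure_subset fun t₀ ht₀ => ?_
    obtain ⟨ε, hε, H⟩ := par_hb_local g x v t₀
    have hm : t₀ ∈ Ioo (t₀ - ε) (t₀ + ε) := ⟨by linarith, by linarith⟩
    obtain ⟨t₁, ht₁, a, b, h1, h0, X, hX0, hX⟩ := mem_closure_iff.1 ht₀ _ isOpen_Ioo hm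
    obtain ⟨Y, hY0, hY⟩ := H t₁ ht₁ (X t₁)
    have hXY : ∀ s ∈ Ioo a b, s ∈ Ioo (t₀ - ε) (t₀ + ε) → X s = Y s := fun s hs hs' =>
      par_hb_uniq (a := max a (t₀ - ε)) (b := min b (t₀ + ε))
        (fun r hr => hX r ⟨(le_max_left _ _).trans_lt hr.1, hr.2.trans_le (min_le_left _ _)⟩)
        (fun r hr => hY r ⟨(le_max_right _ _).trans_lt hr.1, hr.2.trans_le (min_le_right _ _)⟩)
        ⟨max_lt h1.1 ht₁.1, lt_min h1.2 ht₁.2⟩ hY0.symm ⟨max_lt hs.1 hs'.1, lt_min hs.2 hs'.2⟩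
    classical
    refine ⟨min a (t₀ - ε), max b (t₀ + ε),
      ⟨(min_le_right _ _).trans_lt hm.1, hm.2.trans_le (le_max_right _ _)⟩,
      ⟨(min_le_left _ _).trans_lt h0.1, h0.2.trans_le (le_max_left _ _)⟩,
      fun s => if s ∈ Ioo a b then X s else Y s, by simp only [if_pos h0, hX0], fun s hs => ?_⟩
    by_cases hab : s ∈ Ioo a b
    · refine par_hb_congr (hX s hab) ?_
      filter_upwards [isOpen_Ioo.mem_nhds hab] with r hr
      exact if_pos hr
    · have hs' : s ∈ Ioo (t₀ - ε) (t₀ + ε) := by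
        rw [mem_Ioo, not_and_or, not_lt, not_lt] at hab
        have h2 := min_lt_iff.1 hs.1
        have h3 := lt_max_iff.1 hs.2
        obtain ⟨h4, h5⟩ := h1
        obtain ⟨h6, h7⟩ := ht₁
        rcases hab with h | h <;> rcases h2 with h2 | h2 <;> rcases h3 with h3 | h3 <;>
          constructor <;> linarith
      refine par_hb_congr (hY s hs') ?_
      filter_upwards [isOpen_Ioo.mem_nhds hs'] with r hr
      by_cases h : r ∈ Ioo a b
      · rw [if_pos h]; exact hXY r h hr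
      · exact if_neg h
  have hne : P.Nonempty := by
    obtain ⟨ε, hε, H⟩ := par_hb_local g x v 0
    have hm : (0 : ℝ) ∈ Ioo (0 - ε) (0 + ε) := ⟨by linarith, by linarith⟩
    exact ⟨0, _, _, hm, hm, H 0 hm w⟩
  have : t ∈ P := (IsClopen.eq_univ ⟨hc, ho⟩ hne).symm ▸ mem_univ t
  exact this

theorem exists_par (g : Metric E M) (x : M) (v w : E) :
    ∃ X, IsPar g (g.geo x v) X ∧ X 0 = w := by
  choose a b h1 h0 X hX0 hX using par_hb_all g x v w
  refine ⟨fun t => X t t, fun e he t ht => ?_, hX0 0⟩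
  refine par_hb_congr (hX t t (h1 t)) ?_ e he ht
  filter_upwards [isOpen_Ioo.mem_nhds (h1 t)] with s hs
  exact par_hb_uniq (a := max (a s) (a t)) (b := min (b s) (b t))
    (fun r hr => hX s r ⟨(le_max_left _ _).trans_lt hr.1, hr.2.trans_le (min_le_left _ _)⟩)
    (fun r hr => hX t r ⟨(le_max_right _ _).trans_lt hr.1, hr.2.trans_le (min_le_right _ _)⟩)
    ⟨max_lt (h0 s).1 (h0 t).1, lt_min (h0 s).2 (h0 t).2⟩ ((hX0 s).trans (hX0 t).symm)
    ⟨max_lt (h1 s).1 hs.1, lt_min (h1 s).2 hs.2⟩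

end Vale.Agent.P231
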