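import Vale.Agent.P231.G.SymB

/-!
# From the infinitesimal symmetry to the geodesic reflection  (TASK)

`σ y = exp p (-lg p y)`.  `per_unit`: rescale (`geo_smul`, `exp_smul`); in particular `exp (-u) = exp u` for `nrm u = D`.  `refl_exp` for `nrm v ≤ D`: `lg_exp` if `< D`; if `= D` both sides equal `exp v` (`lg_spec`, `rdist_exp`).
For general `v = t • u` (`nrm u = 1`) reduce `t` modulo `2 D` to `[-D, D]` (`toIcoMod`, `Function.Periodic`).  `σ (σ y) = y` by `refl_exp`, `lg_spec`.  `σ` is continuous along curves where needed: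
`refl_seg`: `c = geo x u`, `rdist p (c t) < D` on `Icc a b`; put `φ r = a + (b - a) * smoothTransition r` (monotone, smooth), `η r = lg p (c (φ r))`; `η` is `C¹` (`contDiffAt_lg`, `c1_chart`), `exp ∘ η = c ∘ φ` and
`exp ∘ (-η)` are `C1` (`c1_of_charts`, `contDiffAt_exp`), with the same speed by `Sym` (chain rule), so `rdist ≤ length = ∫ spd (c ∘ φ) = (b - a) nrm u` (`rdist_le_length`, `int_reparam_curve`, `spd_geo`).
At a point `y` with `rdist p y = D`: `σ y = y` and `rdist (σ z) y ≤ rdist (σ z) z + rdist z y` with `rdist (σ z) z ≤ 2 (D - rdist p z)` (both lie on the closed geodesic, at distance `D - rdist p z` from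
`exp (D u) = exp (-D u)`; `rdist_geo_le`), so `σ` is continuous at such points in the sense of `rdist`.  `refl_lip`: minimising `c` from `x` to `y` (`hopf_rinow`), `Z = {t ∈ [0,1] | rdist p (c t) = D}` compact; if empty use `refl_seg`;
else `t₁ = min Z`, `t₂ = max Z`, use `refl_seg` on `[0, t₁ - ε]`, `[t₂ + ε, 1]`, let `ε → 0`, and `rdist_geo_le` between.  This file holds one portion of the plan above.  Prefix helper names by `sym_hc_`.
-/

namespace Vale.Agent.P231

open scoped ContDiff Manifold ENNReal Topology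
open Vale.Agent.P255 Vale.Agent.P234 Set Filter Real

variable {E M : Type*} [NormedAddCommGroup E] [NormedSpace ℝ E] [FiniteDimensional ℝ E]
  [TopologicalSpace M] [ChartedSpace E M] [IsManifold 𝓘(ℝ, E) ∞ M] [T2Space M] [CompactSpace M]
  [ConnectedSpace M] {g : Metric E M} {D : ℝ} {p : M}

theorem sym_hc_near (h : Bl g D) (hP : Per g D) (p z : M) :
    rdist g (refl g p z) z ≤ 2 * (D - rdist g p z) := by
  obtain ⟨h1, h2⟩ := lg_spec g p z
  have h3 := h.le p z
  by_cases h0 : lg g p z = 0
  · rw [refl, h0, neg_zero, ← h0, h1, rdist_self]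
    linarith
  have hn : 0 < nrm g p (lg g p z) :=
    (nrm_nonneg g p _).lt_of_ne fun e => h0 (nrm_eq_zero g e.symm)
  rw [h2] at hn
  have hu : nrm g p ((rdist g p z)⁻¹ • lg g p z) = 1 := by
    rw [nrm_smul, abs_of_pos (inv_pos.2 hn), h2, inv_mul_cancel₀ hn.ne']
  have h4 := per_unit h hP hu (-rdist g p z)
  have h5 := rdist_geo_le g p ((rdist g p z)⁻¹ • lg g p z) (-rdist g p z + 2 * D) (rdist g p z)
  rw [← g.exp_smul, ← g.exp_smul, h4, neg_smul, smul_inv_smul₀ hn.ne', h1, hu, mul_one,
    abs_of_nonpos (by linarith)] at h5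
  exact h5.trans_eq (by ring)

theorem refl_lip (h : Bl g D) (hP : Per g D) (hS : Sym g D p) (x y : M) :
    rdist g (refl g p x) (refl g p y) ≤ rdist g x y := by
  obtain ⟨u, rfl, hu⟩ := hopf_rinow g x y
  rw [show rdist g x (g.exp x u) = nrm g x u from hu, Metric.exp]
  nth_rewrite 1 [← g.geo_zero x u]
  have hd := nrm_nonneg g x u
  have hf : Continuous fun t => rdist g p (g.geo x u t) :=
    (continuous_rdist g).comp (continuous_const.prodMk (g.continuous_geo x u))
  have hZ : IsCompact (Icc (0 : ℝ) 1 ∩ (fun t => rdist g p (g.geo x u t)) ⁻¹' {D}) :=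
    isCompact_Icc.inter_right (isClosed_singleton.preimage hf)
  rcases (Icc (0 : ℝ) 1 ∩ (fun t => rdist g p (g.geo x u t)) ⁻¹' {D}).eq_empty_or_nonempty with
    he | hne
  · have h1 := refl_seg h hS x u zero_le_one fun t ht =>
      (h.le _ _).lt_of_ne fun e => (eq_empty_iff_forall_notMem.1 he t) ⟨ht, e⟩
    rwa [sub_zero, one_mul] at h1
  obtain ⟨a, ⟨⟨a0, a1⟩, ha⟩, ha'⟩ := hZ.exists_isLeast hne
  obtain ⟨b, ⟨⟨b0, b1⟩, hb⟩, hb'⟩ := hZ.exists_isGreatest hne
  have hab : a ≤ b := hb' ⟨⟨a0, a1⟩, ha⟩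
  have hl : ∀ s t, rdist g p (g.geo x u t) = D →
      D - rdist g p (g.geo x u s) ≤ |t - s| * nrm g x u := fun s t e => by
    have h1 := rdist_triangle g p (g.geo x u s) (g.geo x u t)
    have h2 := rdist_geo_le g x u s t
    linarith
  have key : ∀ ε ∈ Ioo (0 : ℝ) 1, rdist g (refl g p (g.geo x u 0)) (refl g p (g.geo x u 1)) ≤
      nrm g x u + ε * (4 * nrm g x u) := by
    rintro ε ⟨e0, e1⟩
    have s1 : rdist g (refl g p (g.geo x u 0)) (refl g p (g.geo x u (a - ε * a))) ≤
        (a - ε * a - 0) * nrm g x u := by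
      rcases a0.eq_or_lt with rfl | a0'
      · simp [rdist_self]
      · exact refl_seg h hS x u (by nlinarith) fun t ht => (h.le _ _).lt_of_ne fun e => by
          have := ha' ⟨⟨ht.1, by nlinarith [ht.2]⟩, e⟩
          nlinarith [ht.2]
    have s2 : rdist g (refl g p (g.geo x u (b + ε * (1 - b)))) (refl g p (g.geo x u 1)) ≤
        (1 - (b + ε * (1 - b))) * nrm g x u := by
      rcases b1.eq_or_lt with rfl | b1'
      · simp [rdist_self]
      · exact refl_seg h hS x u (by nlinarith) fun t ht => (h.le _ _).lt_of_ne fun e => by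
          have := hb' ⟨⟨by nlinarith [ht.1], ht.2⟩, e⟩
          nlinarith [ht.1]
    have k1 := hl (a - ε * a) a ha
    have k2 := hl (b + ε * (1 - b)) b hb
    have k3 := rdist_geo_le g x u (a - ε * a) (b + ε * (1 - b))
    rw [abs_of_nonneg (by nlinarith)] at k1 k3
    rw [abs_of_nonpos (by nlinarith)] at k2
    have n1 := sym_hc_near h hP p (g.geo x u (a - ε * a))
    have n2 := sym_hc_near h hP p (g.geo x u (b + ε * (1 - b)))
    rw [rdist_comm] at n2
    have t1 := rdist_triangle g (refl g p (g.geo x u 0)) (refl g p (g.geo x u (a - ε * a)))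
      (refl g p (g.geo x u 1))
    have t2 := rdist_triangle g (refl g p (g.geo x u (a - ε * a))) (g.geo x u (a - ε * a))
      (refl g p (g.geo x u 1))
    have t3 := rdist_triangle g (g.geo x u (a - ε * a)) (g.geo x u (b + ε * (1 - b)))
      (refl g p (g.geo x u 1))
    have t4 := rdist_triangle g (g.geo x u (b + ε * (1 - b)))
      (refl g p (g.geo x u (b + ε * (1 - b)))) (refl g p (g.geo x u 1))
    have m1 := mul_nonneg (mul_nonneg e0.le hd) (sub_nonneg.2 a1)
    have m2 := mul_nonneg (mul_nonneg e0.le hd) b0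
    nlinarith
  have ht : Tendsto (fun ε : ℝ => nrm g x u + ε * (4 * nrm g x u)) (𝓝[>] 0)
      (𝓝 (nrm g x u + 0 * (4 * nrm g x u))) :=
    ((continuous_const.add (continuous_id.mul continuous_const)).tendsto 0).mono_left
      nhdsWithin_le_nhds
  rw [zero_mul, add_zero] at ht
  exact ge_of_tendsto ht (mem_of_superset (Ioo_mem_nhdsGT one_pos) key)

theorem isSymmetric_of (h : Bl g D) (hP : Per g D) (hS : ∀ p, Sym g D p) : IsSymmetric g := by
  intro p
  have hi : Function.Involutive (refl g p) := fun y => by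
    have h1 := refl_exp h hP p (-lg g p y)
    rwa [neg_neg, (lg_spec g p y).1] at h1
  refine ⟨hi.toPerm, fun x y => le_antisymm (refl_lip h hP (hS p) x y) ?_, fun v => ?_⟩
  · have h1 := refl_lip h hP (hS p) (refl g p x) (refl g p y)
    rwa [hi x, hi y] at h1
  · rw [expm_eq, expm_eq]
    exact refl_exp h hP p v

end Vale.Agent.P231
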