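import Vale.Agent.P231.G.Jac
import Vale.Agent.P231.M.Main

/-!
# The inequality along a closed geodesic and its equality case  (TASK)

Take a frame (`exists_frame`), its system (`exists_sys`), `exists_sper`.  `Tv C S (π/2)`: `jac_eq` and `Bl.jac_pos` for the vector `(t - s) • vel s` of norm `(t - s) 2D/π < D` (`nrm_vel_geo`, `nrm_smul`).
Nullity: `z ↦ (π/2) • cmb 0 z 0` maps `ker S(π/2)` injectively into the kernel of `dexp x ((π/2) • v)` (`dexp_cmb` with `s = 0`, `pr_zero`, `geo_zero`, `vel_geo_zero`, `Fr.ip_cmb`;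
`LinearMap.finrank_le_finrank_of_injective`).  `avJ τ = τ ^ (-m) ∫ |det A(s+τ,s)|` by `jac_eq`; `ode_main`.  For `ray_sym`: write `τ • w' = ` any vector (`Fr.expand`), use `dexp_cmb` with `c = τ` and
`c = -τ` (linearity of `dexp`, `nrm` of `-u`), `Fr.ip_cmb`: the squared norms are `|S(±τ) z|² + τ² a² |v|²`.
`sym_of`: `u = 0` is trivial (`neg_zero`); otherwise `u = τ • v` with `nrm v = 2D/π`, `τ = π nrm u / (2D) ∈ Ioo 0 (π/2)`.  Prefix helper names by `ray_h`.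
-/

namespace Vale.Agent.P231

open scoped ContDiff Manifold ENNReal Topology
open Vale.Agent.P255 Vale.Agent.P234 Set Filter Real Matrix

variable {E M : Type*} [NormedAddCommGroup E] [NormedSpace ℝ E] [FiniteDimensional ℝ E]
  [TopologicalSpace M] [ChartedSpace E M] [IsManifold 𝓘(ℝ, E) ∞ M] [T2Space M] [CompactSpace M]
  [ConnectedSpace M] {g : Metric E M} {m k : ℕ} {x : M} {v : E} {D : ℝ}

/-- The multiplicity of the conjugate points at distance `D` is at most `k`. -/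
def Nul (g : Metric E M) (D : ℝ) (k : ℕ) : Prop :=
  ∀ x v, nrm g x v = D → Module.finrank ℝ (LinearMap.ker (dexp g x v : E →ₗ[ℝ] E)) ≤ k

theorem ray_h0 {X : Fin m → ℝ → E} {C S C1 S1 : ℝ → Mat m} (h : Fr g (g.geo x v) X)
    (hE : Module.finrank ℝ E = m + 1) (hv : v ≠ 0) (hS : Sys (rmat g (g.geo x v) X) C S C1 S1)
    (c : ℝ) (z : Fin m → ℝ) (a : ℝ) : g.exp x (c • v) = g.geo x v c ∧
      dexp g x (c • v) (c • cmb (g.geo x v) X 0 z a) = cmb (g.geo x v) X c (S c *ᵥ z) (c * a) := by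
  have := h.dexp_cmb hE hv hS 0 c z a
  rwa [vel_geo_zero, g.geo_zero, zero_add, hS.pr_zero] at this

theorem ray_h1 {X : Fin m → ℝ → E} {C S C1 S1 : ℝ → Mat m} (h : Fr g (g.geo x v) X)
    (hE : Module.finrank ℝ E = m + 1) (hv : v ≠ 0) (hS : Sys (rmat g (g.geo x v) X) C S C1 S1)
    {c : ℝ} (hc : c ≠ 0) :
    nul (S c) ≤ Module.finrank ℝ (LinearMap.ker (dexp g x (c • v) : E →ₗ[ℝ] E)) := by
  let f : (Fin m → ℝ) →ₗ[ℝ] E :=
    { toFun := fun z => c • cmb (g.geo x v) X 0 z 0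
      map_add' := fun z z' => by
        simp only [cmb, Pi.add_apply, add_smul, Finset.sum_add_distrib, zero_smul, add_zero,
          smul_add]
      map_smul' := fun a z => by
        simp only [cmb, Pi.smul_apply, smul_eq_mul, mul_smul, zero_smul, add_zero,
          RingHom.id_apply, ← Finset.smul_sum]
        rw [smul_comm] }
  have hf : Function.Injective f := (injective_iff_map_eq_zero f).2 fun z hz => by
    have h0 : cmb (g.geo x v) X 0 z 0 = 0 := (smul_eq_zero.1 hz).resolve_left hc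
    have h1 := h.ip_cmb 0 z z 0 0
    rw [h0, map_zero, zero_mul, zero_mul, add_zero] at h1
    exact dotProduct_self_eq_zero.1 h1.symm
  have hm : ∀ z ∈ LinearMap.ker (S c).mulVecLin,
      f z ∈ LinearMap.ker (dexp g x (c • v) : E →ₗ[ℝ] E) := fun z hz => by
    have h0 : S c *ᵥ z = 0 := hz
    have h1 := (ray_h0 h hE hv hS c z 0).2
    rw [h0, mul_zero] at h1
    refine h1.trans ?_
    simp [cmb]
  exact LinearMap.finrank_le_finrank_of_injective (f := f.restrict hm) fun a b e =>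
    Subtype.ext (hf (congrArg Subtype.val e))

theorem ray_h2 (h : Bl g D) (hP : Per g D) (hE : Module.finrank ℝ E = m + 1) (hk : Nul g D k)
    (hv : nrm g x v = 2 * D / π) : v ≠ 0 ∧ ∃ (X : Fin m → ℝ → E) (C S C1 S1 : ℝ → Mat m),
      Fr g (g.geo x v) X ∧ Sys (rmat g (g.geo x v) X) C S C1 S1 ∧
      (∀ τ ∈ Ioo 0 (π / 2), π * mdl m k τ ≤ avJ g x v τ) ∧
      ((∀ τ ∈ Ioo 0 (π / 2), avJ g x v τ ≤ π * mdl m k τ) →
        ∀ τ ∈ Ioo 0 (π / 2), (S τ)ᵀ * S τ = (S (-τ))ᵀ * S (-τ)) := by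
  have hD := h.pos
  have hπ := pi_pos
  have h0 : v ≠ 0 := fun e => by
    rw [e, nrm_zero] at hv
    exact (by positivity : 0 < 2 * D / π).ne hv
  obtain ⟨X, hX⟩ := exists_frame g hE x h0
  obtain ⟨C, S, C1, S1, hS⟩ := hX.exists_sys hE h0
  obtain ⟨P, hp⟩ := hX.exists_sper hE hD hP hv hS
  have hT : Tv C S (π / 2) := fun t s h1 h2 hd => by
    have p : 0 < t - s := sub_pos.2 h1
    have e := hX.jac_eq hE h0 hS s p.ne'
    rw [add_sub_cancel, hd, abs_zero, zero_div] at e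
    refine (h.jac_pos ?_).ne' e
    rw [nrm_smul, nrm_vel_geo, hv, abs_of_pos p, ← mul_div_assoc, div_lt_iff₀ hπ]
    nlinarith
  have hn : nul (S (π / 2)) ≤ k := (ray_h1 hX hE h0 hS (by positivity)).trans (hk x _ (by
    rw [nrm_smul, hv, abs_of_pos (by positivity)]
    field_simp))
  have e1 : ∀ τ ∈ Ioo 0 (π / 2),
      avJ g x v τ = (∫ s in (0 : ℝ)..π, |(pr C S (s + τ) s).det|) / τ ^ m := fun τ hτ => by
    rw [avJ, ← intervalIntegral.integral_div]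
    simp only [hX.jac_eq hE h0 hS _ hτ.1.ne', abs_of_pos hτ.1]
  have e2 : ∀ τ, π * mdl m k τ = π * (sin τ ^ m * cos τ ^ k) / τ ^ m := fun τ => by
    rw [mdl, div_pow]
    ring
  obtain ⟨o1, o2⟩ := ode_main hS hp hT hn
  refine ⟨h0, X, C, S, C1, S1, hX, hS, fun τ hτ => ?_, fun he => o2 fun τ hτ => ?_⟩
  · rw [e1 τ hτ, e2]
    exact div_le_div_of_nonneg_right (o1 τ hτ) (pow_pos hτ.1 m).le
  · have := he τ hτ
    rwa [e1 τ hτ, e2, div_le_div_iff_of_pos_right (pow_pos hτ.1 m)] at this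

theorem ray_ge (h : Bl g D) (hP : Per g D) (hE : Module.finrank ℝ E = m + 1) (hk : Nul g D k)
    (hv : nrm g x v = 2 * D / π) {τ : ℝ} (hτ : τ ∈ Ioo 0 (π / 2)) :
    π * mdl m k τ ≤ avJ g x v τ := by
  obtain ⟨-, X, C, S, C1, S1, -, -, h1, -⟩ := ray_h2 h hP hE hk hv
  exact h1 τ hτ

theorem ray_sym (h : Bl g D) (hP : Per g D) (hE : Module.finrank ℝ E = m + 1) (hk : Nul g D k)
    (hv : nrm g x v = 2 * D / π) (he : ∀ τ ∈ Ioo 0 (π / 2), avJ g x v τ ≤ π * mdl m k τ)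
    {τ : ℝ} (hτ : τ ∈ Ioo 0 (π / 2)) (w : E) :
    nrm g (g.exp x (τ • v)) (dexp g x (τ • v) w) =
      nrm g (g.exp x (-(τ • v))) (dexp g x (-(τ • v)) w) := by
  obtain ⟨h0, X, C, S, C1, S1, hX, hS, -, h1⟩ := ray_h2 h hP hE hk hv
  obtain ⟨z, a, hw⟩ : ∃ z a, τ⁻¹ • w = cmb (g.geo x v) X 0 z a := ⟨_, _, hX.expand hE h0 0 _⟩
  obtain ⟨a1, a2⟩ := ray_h0 hX hE h0 hS τ z a
  obtain ⟨b1, b2⟩ := ray_h0 hX hE h0 hS (-τ) z a
  rw [← hw, smul_inv_smul₀ hτ.1.ne'] at a2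
  rw [← hw, neg_smul τ (τ⁻¹ • w), smul_inv_smul₀ hτ.1.ne', map_neg, neg_eq_iff_eq_neg,
    ← neg_one_smul ℝ (cmb _ _ _ _ _)] at b2
  rw [← neg_smul, a1, a2, b1, b2, nrm_smul, abs_neg, abs_one, one_mul, nrm, nrm, ipr_eq, ipr_eq,
    hX.ip_cmb, hX.ip_cmb]
  have e : ∀ B : Mat m, (B *ᵥ z) ⬝ᵥ (B *ᵥ z) = z ⬝ᵥ ((Bᵀ * B) *ᵥ z) := fun B => by
    rw [← mulVec_mulVec, dotProduct_mulVec z, vecMul_transpose]
  rw [e, e, h1 he τ hτ]
  congr 2
  ring

theorem sym_of (h : Bl g D) (hP : Per g D) (hE : Module.finrank ℝ E = m + 1) (hk : Nul g D k)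
    (he : ∀ v, nrm g x v = 2 * D / π → ∀ τ ∈ Ioo 0 (π / 2), avJ g x v τ ≤ π * mdl m k τ) :
    Sym g D x := by
  intro u hu w
  rcases eq_or_ne u 0 with rfl | h0
  · rw [neg_zero]
  have hD := h.pos
  have hπ := pi_pos
  have p : 0 < nrm g x u := (nrm_nonneg g x u).lt_of_ne fun e => h0 (nrm_eq_zero g e.symm)
  have hτ : π * nrm g x u / (2 * D) ∈ Ioo 0 (π / 2) :=
    ⟨by positivity, by rw [div_lt_div_iff₀ (by positivity) two_pos]; nlinarith⟩
  have hv : nrm g x ((π * nrm g x u / (2 * D))⁻¹ • u) = 2 * D / π := by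
    rw [nrm_smul, abs_of_pos (inv_pos.2 hτ.1)]
    field_simp
  have := ray_sym h hP hE hk hv (he _ hv) hτ w
  rwa [smul_inv_smul₀ hτ.1.ne'] at this

end Vale.Agent.P231
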