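import Vale.Agent.P231.G.BlB

/-!
# The Blaschke condition; the logarithm  (TASK)

`bl_of`: `expm g x = g.exp x` (`funext`, `expm_eq`).  `D > 0`: a short vector `u ≠ 0` is minimising (`short`), so `0 < rdist ≤ diam`.  `le` from `le_iSup₂`.  For `nrm v < D`: there is
`r > nrm v` with `Emb g x r` (`lt_iSup_iff`, `iInf_le`); `hopf_rinow` gives a minimising `w` with the same image and `nrm w ≤ nrm v` (`rdist_exp_le`), so `w = v`.  For `nrm v = D` use
`TC.min` with `c • v`, `c → 1-` (`TC.const_base`).  `Bl.inj`: `Min.smul_inj` or `mem_injDom` (`v = 0` separately).  `lg_spec`: `hopf_rinow`.  `Bl.lg_exp`: `inj_uniq`.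
`Bl.tc_lg`: by ultrafilters (`Filter.tendsto_iff_ultrafilter`, `TC.of_bounded`, `TC.mono`): a limit `u₀` is minimising (`TC.min`), has image `y₀` (`TC.exp`), so `u₀ = lg x₀ y₀`.
`TC.geo`, `TC.vel`: `geo x u t = exp x (t • u)` (`exp_smul`, `TC.smul`, `TC.exp`); for the velocity use `depN 0` (continuity of `stE` in the initial data at time `1`), `pE`, `geoE_tr`,
`hasDerivAt_geo`: when `t₀ ≠ 0`, `pE (a, t • w) = t • velocity` (`pE_smul`); in general write `geo x u t = geo x (c • u) (t / c)`; a clean way: fix `T ≠ 0` and use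
`geo_vel`, or treat `t₀ = 0` through `vel (geo x u) t = vel (geo x' u') (t + 1)` with `(x', u')` the state at time `-1` (case `t₀ ≠ 0` applied twice).
`TCont.tendsto`: push the filter forward by `fun i => (x i, u i)`.  `Bl.contDiffAt_lg`: `NC.exists_br`, the branch `V` agrees with `lg` near `y₀` (its values have norm `< D`, `lg_exp`).
This file holds one portion of the plan above.  Prefix helper names by `bl_hc_`.
-/

namespace Vale.Agent.P231

open scoped ContDiff Manifold ENNReal Topology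
open Vale.Agent.P255 Vale.Agent.P234 Set Filter Real

variable {E M : Type*} [NormedAddCommGroup E] [NormedSpace ℝ E] [FiniteDimensional ℝ E]
  [TopologicalSpace M] [ChartedSpace E M] [IsManifold 𝓘(ℝ, E) ∞ M] [T2Space M] [CompactSpace M]
  [ConnectedSpace M] {g : Metric E M} {D : ℝ} {e : OpenPartialHomeomorph M E}

section
variable {ι : Type*} {l : Filter ι} {x y : ι → M} {u : ι → E} {t : ι → ℝ} {x₀ y₀ : M} {u₀ : E}
  {t₀ : ℝ}

theorem Bl.tc_lg (h : Bl g D) (hx : Tendsto x l (𝓝 x₀)) (hy : Tendsto y l (𝓝 y₀))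
    (hd : rdist g x₀ y₀ < D) : TC l x (fun i => lg g (x i) (y i)) x₀ (lg g x₀ y₀) := by
  refine ⟨hx, tendsto_iff_ultrafilter _ _ _ |>.2 fun U hU => ?_⟩
  obtain ⟨u₀, h0⟩ := TC.of_bounded g (l := U) (u := fun i => lg g (x i) (y i)) (hx.mono_left hU)
    (R := D) (Eventually.of_forall fun i => (lg_spec g _ _).2.trans_le (h.le _ _))
  have h1 : g.exp x₀ u₀ = y₀ := by
    have h2 := TC.exp g h0
    simp only [(lg_spec g _ _).1] at h2
    exact tendsto_nhds_unique h2 (hy.mono_left hU)
  have h3 : P234.Min g x₀ u₀ := TC.min g h0 (Eventually.of_forall fun i => by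
    change rdist g _ _ = _
    rw [(lg_spec g _ _).1, (lg_spec g _ _).2])
  have h4 : nrm g x₀ u₀ < D := by
    have h5 : rdist g x₀ (g.exp x₀ u₀) = nrm g x₀ u₀ := h3
    rwa [← h5, h1]
  rw [← h1, h.lg_exp h4]
  exact h0.2

end

theorem Bl.contDiffAt_lg (h : Bl g D) {x y : M} (hd : rdist g x y < D) (he : e ∈ atlas E M)
    (hy : y ∈ e.source) : ContDiffAt ℝ 1 (fun b => lg g x (e.symm b)) (e y) := by
  obtain ⟨h1, h2⟩ := lg_spec g x y
  have h3 : nrm g x (lg g x y) < D := h2.trans_lt hd
  obtain ⟨V, hV⟩ := (inj_nc (h.inj h3)).exists_br (chart_mem_atlas E x) he (mem_chart_source E x)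
    (by rw [h1]; exact hy)
  rw [tr_self] at hV
  have hb : bE g (chartAt E x) e (chartAt E x x, lg g x y) = e y := by rw [bE, expE_self, h1]
  have hs := hV.smooth
  have hr := hV.right
  have ha := hV.apply
  simp only [hb] at hs hr ha
  have hc : ContDiffAt ℝ 1 (fun b => V (chartAt E x x, b)) (e y) :=
    (hs.of_le (by norm_num)).comp (e y) (contDiffAt_const.prodMk contDiffAt_id)
  refine hc.congr_of_eventuallyEq ?_
  have h4 : Tendsto (fun b => nrm g x (V (chartAt E x x, b))) (𝓝 (e y)) (𝓝 (nrm g x (lg g x y))) :=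
    TC.nrm g (TC.const_base.2 (ha ▸ hc.continuousAt.tendsto))
  have h5 : Tendsto (fun b : E => (chartAt E x x, b)) (𝓝 (e y)) (𝓝 (chartAt E x x, e y)) :=
    (continuous_const.prodMk continuous_id).tendsto _
  filter_upwards [h4.eventually (gt_mem_nhds h3), h5.eventually hr] with b hb1 hb2
  rw [expE_self] at hb2
  rw [← hb2, h.lg_exp hb1]

end Vale.Agent.P231
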