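import Vale.Agent.P231.G.Defs

/-!
# The Blaschke condition; the logarithm  (TASK)

`bl_of`: `expm g x = g.exp x` (`funext`, `expm_eq`).  `D > 0`: a short vector `u ≠ 0` is minimising (`short`), so `0 < rdist ≤ diam`.  `le` from `le_iSup₂`.  For `nrm v < D`: there is
`r > nrm v` with `Emb g x r` (`lt_iSup_iff`, `iInf_le`); `hopf_rinow` gives a minimising `w` with the same image and `nrm w ≤ nrm v` (`rdist_exp_le`), so `w = v`.  For `nrm v = D` use
`TC.min` with `c • v`, `c → 1-` (`TC.const_base`).  `Bl.inj`: `Min.smul_inj` or `mem_injDom` (`v = 0` separately).  `lg_spec`: `hopf_rinow`.  `Bl.lg_exp`: `inj_uniq`.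
`Bl.tc_lg`: by ultrafilters (`Filter.tendsto_iff_ultrafilter`, `TC.of_bounded`, `TC.mono`): a limit `u₀` is minimising (`TC.min`), has image `y₀` (`TC.exp`), so `u₀ = lg x₀ y₀`.
`TC.geo`, `TC.vel`: `geo x u t = exp x (t • u)` (`exp_smul`, `TC.smul`, `TC.exp`); for the velocity use `depN 0` (continuity of `stE` in the initial data at time `1`), `pE`, `geoE_tr`,
`hasDerivAt_geo`: when `t₀ ≠ 0`, `pE (a, t • w) = t • velocity` (`pE_smul`); in general write `geo x u t = geo x (c • u) (t / c)`; a clean way: fix `T ≠ 0` and use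
`geo_vel`, or treat `t₀ = 0` through `vel (geo x u) t = vel (geo x' u') (t + 1)` with `(x', u')` the state at time `-1` (case `t₀ ≠ 0` applied twice).
`TCont.tendsto`: push the filter forward by `fun i => (x i, u i)`.  `Bl.contDiffAt_lg`: `NC.exists_br`, the branch `V` agrees with `lg` near `y₀` (its values have norm `< D`, `lg_exp`).
This file holds one portion of the plan above.  Prefix helper names by `bl_ha_`.
-/

namespace Vale.Agent.P231

open scoped ContDiff Manifold ENNReal Topology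
open Vale.Agent.P255 Vale.Agent.P234 Set Filter Real

variable {E M : Type*} [NormedAddCommGroup E] [NormedSpace ℝ E] [FiniteDimensional ℝ E]
  [TopologicalSpace M] [ChartedSpace E M] [IsManifold 𝓘(ℝ, E) ∞ M] [T2Space M] [CompactSpace M]
  [ConnectedSpace M] {g : Metric E M} {D : ℝ} {e : OpenPartialHomeomorph M E}

theorem bl_ha_expm (g : Metric E M) (x : M) : expm g x = g.exp x := funext (expm_eq g x)

theorem dexpm_eq (g : Metric E M) (x : M) (v : E) : dexpm g x v = dexp g x v := by
  rw [dexpm, dexp, bl_ha_expm]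

theorem bl_of [Nontrivial E] (hB : Blaschke g) (hD : diam g = ENNReal.ofReal D) : Bl g D := by
  have hle : ∀ x y, ENNReal.ofReal (rdist g x y) ≤ ENNReal.ofReal D := fun x y => by
    rw [← hD]
    exact le_iSup₂ (f := fun x y => ENNReal.ofReal (rdist g x y)) x y
  have hpos : 0 < D := by
    obtain ⟨ε, hε, hs⟩ := short g
    obtain ⟨x⟩ : Nonempty M := inferInstance
    obtain ⟨u, hu⟩ := exists_ne (0 : E)
    have hn : 0 < nrm g x u := (nrm_nonneg g x u).lt_of_ne fun h => hu (nrm_eq_zero g h.symm)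
    have h1 : nrm g x ((ε / 2 / nrm g x u) • u) = ε / 2 := by
      rw [nrm_smul, abs_of_pos (by positivity), div_mul_cancel₀ _ hn.ne']
    have h2 : rdist g x (g.exp x ((ε / 2 / nrm g x u) • u)) = ε / 2 :=
      ((hs x).1 _ (by rw [h1]; linarith)).2.1.trans h1
    have h3 := hle x (g.exp x ((ε / 2 / nrm g x u) • u))
    rw [h2] at h3
    exact ENNReal.ofReal_pos.1 ((ENNReal.ofReal_pos.2 (by positivity)).trans_le h3)
  have hlt : ∀ x v, nrm g x v < D → P234.Min g x v := by
    intro x v hv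
    have h1 : ENNReal.ofReal (nrm g x v) < injAt g x := by
      refine lt_of_lt_of_le ?_ (iInf_le (fun x => injAt g x) x)
      change _ < injRad g
      rw [hB, hD]
      exact (ENNReal.ofReal_lt_ofReal_iff hpos).2 hv
    obtain ⟨r, hr⟩ := lt_iSup_iff.1 h1
    obtain ⟨hE, hr⟩ := lt_iSup_iff.1 hr
    have h2 : nrm g x v < r := (ENNReal.ofReal_lt_ofReal_iff_of_nonneg (nrm_nonneg g x v)).1 hr
    obtain ⟨w, hw, hm⟩ := hopf_rinow g x (g.exp x v)
    have h3 : nrm g x w ≤ nrm g x v := by
      have h4 : rdist g x (g.exp x w) = nrm g x w := hm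
      rw [← h4, hw]
      exact rdist_exp_le g x v
    have h5 : w = v := hE.1 (h3.trans_lt h2) h2 (by rw [bl_ha_expm, hw])
    exact h5 ▸ hm
  refine ⟨hpos, fun x v hv => ?_, fun x y => (ENNReal.ofReal_le_ofReal_iff hpos.le).1 (hle x y)⟩
  have h1 : Tendsto (fun c : ℝ => c • v) (𝓝[<] 1) (𝓝 v) := by
    have h2 : Tendsto (fun c : ℝ => c • v) (𝓝 1) (𝓝 ((1 : ℝ) • v)) :=
      (continuous_id.smul continuous_const).tendsto 1
    rw [one_smul] at h2
    exact h2.mono_left nhdsWithin_le_nhds
  refine TC.min g (TC.const_base.2 h1) ?_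
  filter_upwards [Ioo_mem_nhdsLT one_pos] with c hc
  refine hlt x _ ?_
  rw [nrm_smul, abs_of_pos hc.1]
  nlinarith [hc.1, hc.2, nrm_nonneg g x v]

theorem Bl.inj (h : Bl g D) {x : M} {v : E} (hv : nrm g x v < D) : v ∈ injDom g x := by
  have hD := h.pos
  have h0 := nrm_nonneg g x v
  have hc : 0 < (nrm g x v + D) / (2 * D) := by positivity
  have h1 : P234.Min g x (((nrm g x v + D) / (2 * D))⁻¹ • v) := by
    refine h.min x _ ?_
    rw [nrm_smul, abs_of_pos (inv_pos.2 hc), inv_mul_le_iff₀ hc]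
    have : (nrm g x v + D) / (2 * D) * D = (nrm g x v + D) / 2 := by field_simp
    linarith
  have h2 := h1.smul_inj hc.le (by rw [div_lt_one (by positivity)]; linarith)
  rwa [smul_inv_smul₀ hc.ne'] at h2

theorem lg_spec (g : Metric E M) (x y : M) :
    g.exp x (lg g x y) = y ∧ nrm g x (lg g x y) = rdist g x y := by
  have h := hopf_rinow g x y
  rw [lg, dif_pos h]
  have h1 : rdist g x (g.exp x h.choose) = nrm g x h.choose := h.choose_spec.2
  rw [h.choose_spec.1] at h1
  exact ⟨h.choose_spec.1, h1.symm⟩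

theorem Bl.lg_exp (h : Bl g D) {x : M} {v : E} (hv : nrm g x v < D) : lg g x (g.exp x v) = v := by
  obtain ⟨h1, h2⟩ := lg_spec g x (g.exp x v)
  refine inj_uniq (h.inj hv) _ ?_ h1
  change rdist g x _ = _
  rw [h1, h2]

theorem Bl.rdist_exp (h : Bl g D) {x : M} {v : E} (hv : nrm g x v ≤ D) :
    rdist g x (g.exp x v) = nrm g x v := h.min x v hv

/-- The logarithm in the opposite direction. -/
theorem Bl.lg_flip (h : Bl g D) {x : M} {v : E} (hv : nrm g x v < D) :
    lg g (g.exp x v) x = -vel E (g.geo x v) 1 := by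
  have h1 : g.exp (g.exp x v) (-vel E (g.geo x v) 1) = x := by
    have h2 := geo_vel g x v 1 (-1) 1
    rw [neg_one_smul] at h2
    refine h2.trans ?_
    norm_num [g.geo_zero]
  have h3 : nrm g (g.exp x v) (-vel E (g.geo x v) 1) < D := by
    rw [← neg_one_smul ℝ, nrm_smul]
    have h4 : nrm g (g.exp x v) (vel E (g.geo x v) 1) = nrm g x v := nrm_vel_geo g x v 1
    rw [h4]
    simpa using hv
  have h5 := h.lg_exp h3
  rwa [h1] at h5

end Vale.Agent.P231
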