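import Vale.Agent.P231.G.BlA

/-!
# The Blaschke condition; the logarithm  (TASK)

`bl_of`: `expm g x = g.exp x` (`funext`, `expm_eq`).  `D > 0`: a short vector `u ≠ 0` is minimising (`short`), so `0 < rdist ≤ diam`.  `le` from `le_iSup₂`.  For `nrm v < D`: there is
`r > nrm v` with `Emb g x r` (`lt_iSup_iff`, `iInf_le`); `hopf_rinow` gives a minimising `w` with the same image and `nrm w ≤ nrm v` (`rdist_exp_le`), so `w = v`.  For `nrm v = D` use
`TC.min` with `c • v`, `c → 1-` (`TC.const_base`).  `Bl.inj`: `Min.smul_inj` or `mem_injDom` (`v = 0` separately).  `lg_spec`: `hopf_rinow`.  `Bl.lg_exp`: `inj_uniq`.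
`Bl.tc_lg`: by ultrafilters (`Filter.tendsto_iff_ultrafilter`, `TC.of_bounded`, `TC.mono`): a limit `u₀` is minimising (`TC.min`), has image `y₀` (`TC.exp`), so `u₀ = lg x₀ y₀`.
`TC.geo`, `TC.vel`: `geo x u t = exp x (t • u)` (`exp_smul`, `TC.smul`, `TC.exp`); for the velocity use `depN 0` (continuity of `stE` in the initial data at time `1`), `pE`, `geoE_tr`,
`hasDerivAt_geo`: when `t₀ ≠ 0`, `pE (a, t • w) = t • velocity` (`pE_smul`); in general write `geo x u t = geo x (c • u) (t / c)`; a clean way: fix `T ≠ 0` and use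
`geo_vel`, or treat `t₀ = 0` through `vel (geo x u) t = vel (geo x' u') (t + 1)` with `(x', u')` the state at time `-1` (case `t₀ ≠ 0` applied twice).
`TCont.tendsto`: push the filter forward by `fun i => (x i, u i)`.  `Bl.contDiffAt_lg`: `NC.exists_br`, the branch `V` agrees with `lg` near `y₀` (its values have norm `< D`, `lg_exp`).
This file holds one portion of the plan above.  Prefix helper names by `bl_hb_`.
-/

namespace Vale.Agent.P231

open scoped ContDiff Manifold ENNReal Topology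
open Vale.Agent.P255 Vale.Agent.P234 Set Filter Real

variable {E M : Type*} [NormedAddCommGroup E] [NormedSpace ℝ E] [FiniteDimensional ℝ E]
  [TopologicalSpace M] [ChartedSpace E M] [IsManifold 𝓘(ℝ, E) ∞ M] [T2Space M] [CompactSpace M]
  [ConnectedSpace M] {g : Metric E M} {D : ℝ} {e : OpenPartialHomeomorph M E}

theorem bl_hb_vel_add (g : Metric E M) (x : M) (v : E) (a s : ℝ) :
    vel E (g.geo (g.geo x v a) (vel E (g.geo x v) a)) s = vel E (g.geo x v) (a + s) := by
  have h : g.geo (g.geo x v a) (vel E (g.geo x v) a) = fun s => g.geo x v (a + s) :=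
    funext (g.geo_add x v a)
  rw [h]
  exact deriv_comp_const_add (chartAt E (g.geo x v (a + s)) ∘ g.geo x v) a s

theorem vel_geo_smul (g : Metric E M) (x : M) (v : E) (c t : ℝ) :
    vel E (g.geo x (c • v)) t = c • vel E (g.geo x v) (c * t) := by
  have h : g.geo x (c • v) = fun s => g.geo x v (c * s + 0) :=
    funext fun s => by rw [g.geo_smul, add_zero]
  have h1 := Metric.geo2_deriv_affine (chartAt E (g.geo x v (c * t)) ∘ g.geo x v) c 0 t
  rw [add_zero] at h1
  rw [vel, vel, ← h1, g.geo_smul, h]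
  rfl

section
variable {ι : Type*} {l : Filter ι} {x y : ι → M} {u : ι → E} {t : ι → ℝ} {x₀ y₀ : M} {u₀ : E}
  {t₀ : ℝ}

theorem bl_hb_fixed (g : Metric E M) (h : TC l x u x₀ u₀) (T : ℝ) :
    TC l (fun i => g.geo (x i) (u i) T) (fun i => vel E (g.geo (x i) (u i)) T)
      (g.geo x₀ u₀ T) (vel E (g.geo x₀ u₀) T) := by
  have he : chartAt E x₀ ∈ atlas E M := chart_mem_atlas E x₀
  have hx : x₀ ∈ (chartAt E x₀).source := mem_chart_source E x₀
  have he' : chartAt E (g.geo x₀ u₀ T) ∈ atlas E M := chart_mem_atlas E _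
  have hx' := mem_chart_source E (g.geo x₀ u₀ T)
  have h1 : Tendsto (fun i => (chartAt E x₀ (x i), tr (chartAt E x₀) (x i) (u i))) l
      (𝓝 (chartAt E x₀ x₀, u₀)) :=
    (((chartAt E x₀).continuousAt hx).tendsto.comp h.1).prodMk_nhds h.2
  have hd := depN g 0 he he' (p := (chartAt E x₀ x₀, u₀)) ((chartAt E x₀).map_source hx) (t := T)
    (by rw [geoE_self]; exact hx')
  have hev := h.1.eventually ((chartAt E x₀).open_source.mem_nhds hx)
  have h2 : Tendsto (fun i => g.geo (x i) (u i) T) l (𝓝 (g.geo x₀ u₀ T)) := by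
    have h3 := hd.1.tendsto.comp h1
    simp only [geoE_self] at h3
    refine h3.congr' ?_
    filter_upwards [hev] with i hi
    simp only [Function.comp_apply, geoE_tr g he hi]
  refine ⟨h2, ?_⟩
  have h3 := hd.2.continuousAt.snd.tendsto.comp h1
  simp only [stE, geoE_self] at h3
  refine Tendsto.congr' ?_ h3
  filter_upwards [hev, h2.eventually ((chartAt E (g.geo x₀ u₀ T)).open_source.mem_nhds hx')]
    with i hi hi'
  simp only [Function.comp_apply, geoE_tr g he hi]
  exact (hasDerivAt_geo g he' _ _ hi').deriv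

theorem bl_hb_one (g : Metric E M) (h : TC l x u x₀ u₀) (ht : Tendsto t l (𝓝 1)) :
    TC l (fun i => g.geo (x i) (u i) (t i)) (fun i => vel E (g.geo (x i) (u i)) (t i))
      (g.geo x₀ u₀ 1) (vel E (g.geo x₀ u₀) 1) := by
  have h1 := (bl_hb_fixed g (h.smul ht) 1).smul (ht.inv₀ one_ne_zero)
  simp only [vel_geo_smul, g.geo_smul, mul_one, one_smul, inv_one] at h1
  refine ⟨h1.1, h1.2.congr' ?_⟩
  filter_upwards [ht.eventually_ne one_ne_zero] with i hi
  rw [inv_smul_smul₀ hi]

theorem tc_flow (g : Metric E M) (h : TC l x u x₀ u₀) (ht : Tendsto t l (𝓝 t₀)) :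
    TC l (fun i => g.geo (x i) (u i) (t i)) (fun i => vel E (g.geo (x i) (u i)) (t i))
      (g.geo x₀ u₀ t₀) (vel E (g.geo x₀ u₀) t₀) := by
  have h0 : Tendsto (fun i => t i - (t₀ - 1)) l (𝓝 1) := by
    simpa using ht.sub_const (t₀ - 1)
  have h1 := bl_hb_one g (bl_hb_fixed g h (t₀ - 1)) h0
  simpa only [bl_hb_vel_add, g.geo_add, add_sub_cancel, sub_add_cancel] using h1

theorem TCont.tendsto {Φ : M → E → ℝ} (hΦ : TCont Φ) (h : TC l x u x₀ u₀) :
    Tendsto (fun i => Φ (x i) (u i)) l (𝓝 (Φ x₀ u₀)) :=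
  hΦ x₀ u₀ (l.map fun i => (x i, u i)) h

end

theorem TCont.flw {Φ : M → E → ℝ} (hΦ : TCont Φ) (g : Metric E M) (c : ℝ) :
    TCont (flw g Φ c) := fun _ _ _ h => hΦ.tendsto (tc_flow g h tendsto_const_nhds)

theorem TCont.smul {Φ : M → E → ℝ} (hΦ : TCont Φ) (c : ℝ) : TCont fun x v => Φ x (c • v) :=
  fun _ _ _ h => hΦ.tendsto (h.smul tendsto_const_nhds)

theorem TCont.continuous {Φ : M → E → ℝ} (hΦ : TCont Φ) (x : M) : Continuous (Φ x) :=
  continuous_iff_continuousAt.2 fun _ => hΦ.tendsto (TC.const_base.2 tendsto_id)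

theorem flw_add (g : Metric E M) (Φ : M → E → ℝ) (a b : ℝ) :
    flw g (flw g Φ a) b = flw g Φ (b + a) := by
  funext x v
  simp only [flw, bl_hb_vel_add, g.geo_add]

end Vale.Agent.P231
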