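import Vale.Agent.P231.G.CompA

/-!
# The Jacobi equation in a parallel frame  (TASK)

Curvature symmetries in a chart (`LocMetric G U`): rewrite `riem` with `loc_fderiv_chr` and `chrL_apply`, so it is linear in each slot; antisymmetry in `u, v` is by definition; the first
Bianchi identity from `chr_symm`, `loc_fderiv_chr_symm`; skew symmetry in the last pair by polarising `riem_skew`; together
`G (riem a v v) b = G (riem b v v) a` (`g(R(a,v)v,b) = -g(R(a,v)b,v)`, Bianchi `R(a,v)b + R(v,b)a + R(b,a)v = 0`, `g(R(b,a)v,v) = 0`).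
`tr_rop`: `P219.riem_transform` with `τ = e ∘ (chartAt x).symm` (`compat_eventually`, `tr_contDiffAt`), `hasDerivAt_geo`.
`continuous_rmat`: near `t₀` read everything in `e = chartAt (γ t₀)` (`ip_eq`, `tr_rop`); `contDiffOn_chrL` gives continuity of `fderiv chrL`.
`cpt_deriv`: in the chart `e = chartAt (γ t)`, `cpt s i = G (e γ s) (J e s) (tr e (γ s) (X i s))` for `s` near `t` (transformation law of `IsJacobi`), `hasDerivAt_inner`.  For `cpt1` one needs that
`cov` is a vector field: `tr e (γ s) (cov (chartAt (γ s)) ..) = cov e ..` (`cov_tr`: differentiate the transformation law, `chr_transform`; or compare derivatives of inner products with all parallel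
fields: `exists_par` after a time shift is not needed if you use `chr_transform`); then `hasDerivAt_cov_jac`, expand `J` by `Fr.expand`, `rop (vel) = 0`.  This file holds one portion of the plan above.  Prefix helper names by `comp_hb_`.
-/

namespace Vale.Agent.P231

open scoped ContDiff Manifold ENNReal Topology
open Vale.Agent.P255 Vale.Agent.P234 Set Filter Real Matrix

variable {E M : Type*} [NormedAddCommGroup E] [NormedSpace ℝ E] [FiniteDimensional ℝ E]
  [TopologicalSpace M] [ChartedSpace E M] [IsManifold 𝓘(ℝ, E) ∞ M] [T2Space M] [CompactSpace M]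
  {g : Metric E M} {m : ℕ} {x : M} {v : E} {e : OpenPartialHomeomorph M E}
  {X : Fin m → ℝ → E} {J : OpenPartialHomeomorph M E → ℝ → E}

omit [T2Space M] [CompactSpace M] in
theorem comp_hb_cov {γ : ℝ → M} (hg : g.IsGeodesic γ univ) (hJ : g.IsJacobi γ univ J)
    {c : OpenPartialHomeomorph M E} (hc : c ∈ atlas E M) (he : e ∈ atlas E M) {t : ℝ}
    (hct : γ t ∈ c.source) (ht : γ t ∈ e.source) :
    fderiv ℝ (e ∘ c.symm) (c (γ t)) (g.cov γ c (J c) t) = g.cov γ e (J e) t := by
  have hcont : ContinuousAt γ t := hg.1.continuousAt univ_mem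
  have hτ := tr_contDiffAt hc he hct ht
  have h0 : (e ∘ c.symm) (c (γ t)) = e (γ t) := by
    simp only [Function.comp_apply, c.left_inv hct]
  have hx := (hg.2 c hc t (mem_univ t) hct).1.hasDerivAt
  have hD : DifferentiableAt ℝ (fderiv ℝ (e ∘ c.symm)) ((c ∘ γ) t) :=
    (hτ.fderiv_right (m := 1) (by norm_cast)).differentiableAt (by simp)
  have h1 := (hD.hasFDerivAt.comp_hasDerivAt t hx).clm_apply
    (hJ.2 c hc t (mem_univ t) hct).1.hasDerivAt
  have h2 : J e =ᶠ[𝓝 t] fun s => (fderiv ℝ (e ∘ c.symm) ∘ c ∘ γ) s (J c s) := by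
    filter_upwards [hcont.preimage_mem_nhds (c.open_source.mem_nhds hct),
      hcont.preimage_mem_nhds (e.open_source.mem_nhds ht)] with s a b
    exact hJ.1 c hc e he s (mem_univ s) a b
  have h3 := chr_transform (g.loc hc) (g.loc he) (τ := e ∘ c.symm) (c.map_source hct)
    (by rw [h0]; exact e.map_source ht) (hτ.of_le (by norm_cast))
    (g.compat_eventually hc he hct ht) (deriv (c ∘ γ) t) (J c t)
  have h4 := (h1.congr_of_eventuallyEq h2).deriv
  have h5 := (hasDerivAt_chart hc he hcont hct ht hx).deriv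
  have h6 := hJ.1 c hc e he t (mem_univ t) hct ht
  rw [h0, ← h5, ← h6] at h3
  unfold Metric.cov
  rw [map_add, h3, h4]
  simp only [Function.comp_apply]
  abel

theorem cov_tr (hJ : g.IsJacobi (g.geo x v) univ J) (he : e ∈ atlas E M) {t : ℝ}
    (ht : g.geo x v t ∈ e.source) :
    tr e (g.geo x v t) (g.cov (g.geo x v) (chartAt E (g.geo x v t)) (J (chartAt E (g.geo x v t))) t) =
      g.cov (g.geo x v) e (J e) t :=
  comp_hb_cov (g.geo_isGeodesic x v) hJ (chart_mem_atlas E _) he (mem_chart_source E _) ht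

theorem comp_hb_deriv (h : Fr g (g.geo x v) X) {A : ℝ → E} {B : ℝ → E} {t : ℝ} {B' : E}
    (hB : HasDerivAt B B' t)
    (hA : ∀ s, g.geo x v s ∈ (chartAt E (g.geo x v t)).source →
      tr (chartAt E (g.geo x v t)) (g.geo x v s) (A s) = B s) (i : Fin m) :
    HasDerivAt (fun s => g.ip (g.geo x v s) (A s) (X i s))
      (g.ip (g.geo x v t) (B' + chr (g.g (chartAt E (g.geo x v t)))
        (chartAt E (g.geo x v t) (g.geo x v t)) (vel E (g.geo x v) t) (B t)) (X i t)) t := by
  have hcont : ContinuousAt (g.geo x v) t := (g.continuous_geo x v).continuousAt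
  have hc := chart_mem_atlas E (g.geo x v t)
  have hct := mem_chart_source E (g.geo x v t)
  have hx := ((g.geo_isGeodesic x v).2 _ hc t (mem_univ t) hct).1.hasDerivAt
  have h1 := (g.loc hc).hasDerivAt_inner (x := chartAt E (g.geo x v t) ∘ g.geo x v)
    ((chartAt E (g.geo x v t)).map_source hct) hx hB (h.par i _ hc t hct)
  refine (h1.congr_of_eventuallyEq ?_).congr_deriv ?_
  · filter_upwards [hcont.preimage_mem_nhds ((chartAt E (g.geo x v t)).open_source.mem_nhds hct)]
      with s a
    rw [ip_eq g hc a, hA s a]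
    rfl
  · simp only [Function.comp_apply, neg_add_cancel, map_zero, add_zero, tr_self]
    rfl

theorem Fr.cpt_deriv (h : Fr g (g.geo x v) X) (hJ : g.IsJacobi (g.geo x v) univ J) (t : ℝ) :
    VD (cpt g (g.geo x v) X J) (cpt1 g (g.geo x v) X J t) t := by
  intro i
  have hc := chart_mem_atlas E (g.geo x v t)
  exact comp_hb_deriv h (A := fun s => J (chartAt E (g.geo x v s)) s)
    (hJ.2 _ hc t (mem_univ t) (mem_chart_source E _)).1.hasDerivAt
    (fun s a => (hJ.1 _ (chart_mem_atlas E _) _ hc s (mem_univ s) (mem_chart_source E _) a).symm) i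

theorem Fr.cpt1_deriv (h : Fr g (g.geo x v) X) (hE : Module.finrank ℝ E = m + 1) (hv : v ≠ 0)
    (hJ : g.IsJacobi (g.geo x v) univ J) (t : ℝ) :
    VD (cpt1 g (g.geo x v) X J) (-(rmat g (g.geo x v) X t *ᵥ cpt g (g.geo x v) X J t)) t := by
  intro i
  have hc := chart_mem_atlas E (g.geo x v t)
  have hct := mem_chart_source E (g.geo x v t)
  have hy := (chartAt E (g.geo x v t)).map_source hct
  refine (comp_hb_deriv h (A := fun s => g.cov (g.geo x v) (chartAt E (g.geo x v s))
    (J (chartAt E (g.geo x v s))) s) (hJ.hasDerivAt_cov_jac hc (mem_univ t) hct)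
    (fun s a => cov_tr hJ hc a) i).congr_deriv ?_
  have hp : ∀ a b, g.ip (g.geo x v t) (rop g (g.geo x v) t a) b =
      g.ip (g.geo x v t) (rop g (g.geo x v) t b) a := fun a b => riem_pair (g.loc hc) hy a b _
  have hz : ∀ a, g.ip (g.geo x v t) (rop g (g.geo x v) t a) (vel E (g.geo x v) t) = 0 :=
    fun a => (g.loc hc).riem_skew hy a _ _
  have h1 : g.ip (g.geo x v t) (rop g (g.geo x v) t (J (chartAt E (g.geo x v t)) t)) (X i t) =
      (rmat g (g.geo x v) X t *ᵥ cpt g (g.geo x v) X J t) i := by
    rw [hp, h.expand hE hv t (J (chartAt E (g.geo x v t)) t)]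
    simp only [cmb, map_add, map_sum, map_smul, hz, smul_eq_mul, mul_zero, add_zero]
    refine Finset.sum_congr rfl fun j _ => ?_
    rw [mul_comm, hp]
    rfl
  have e1 : ∀ a b : E, -a - b + a = -b := fun a b => by abel
  rw [Pi.neg_apply, ← h1, vel, e1, map_neg]
  rfl

end Vale.Agent.P231
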