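import Vale.Agent.P231.G.Par
import Vale.Agent.P219.GeoM

/-!
# The Jacobi equation in a parallel frame  (TASK)

Curvature symmetries in a chart (`LocMetric G U`): rewrite `riem` with `loc_fderiv_chr` and `chrL_apply`, so it is linear in each slot; antisymmetry in `u, v` is by definition; the first
Bianchi identity from `chr_symm`, `loc_fderiv_chr_symm`; skew symmetry in the last pair by polarising `riem_skew`; together
`G (riem a v v) b = G (riem b v v) a` (`g(R(a,v)v,b) = -g(R(a,v)b,v)`, Bianchi `R(a,v)b + R(v,b)a + R(b,a)v = 0`, `g(R(b,a)v,v) = 0`).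
`tr_rop`: `P219.riem_transform` with `τ = e ∘ (chartAt x).symm` (`compat_eventually`, `tr_contDiffAt`), `hasDerivAt_geo`.
`continuous_rmat`: near `t₀` read everything in `e = chartAt (γ t₀)` (`ip_eq`, `tr_rop`); `contDiffOn_chrL` gives continuity of `fderiv chrL`.
`cpt_deriv`: in the chart `e = chartAt (γ t)`, `cpt s i = G (e γ s) (J e s) (tr e (γ s) (X i s))` for `s` near `t` (transformation law of `IsJacobi`), `hasDerivAt_inner`.  For `cpt1` one needs that
`cov` is a vector field: `tr e (γ s) (cov (chartAt (γ s)) ..) = cov e ..` (`cov_tr`: differentiate the transformation law, `chr_transform`; or compare derivatives of inner products with all parallel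
fields: `exists_par` after a time shift is not needed if you use `chr_transform`); then `hasDerivAt_cov_jac`, expand `J` by `Fr.expand`, `rop (vel) = 0`.  This file holds one portion of the plan above.  Prefix helper names by `comp_ha_`.
-/

namespace Vale.Agent.P231

open scoped ContDiff Manifold ENNReal Topology
open Vale.Agent.P255 Vale.Agent.P234 Set Filter Real Matrix

variable {E M : Type*} [NormedAddCommGroup E] [NormedSpace ℝ E] [FiniteDimensional ℝ E]
  [TopologicalSpace M] [ChartedSpace E M] [IsManifold 𝓘(ℝ, E) ∞ M] [T2Space M] [CompactSpace M]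
  {g : Metric E M} {m : ℕ} {x : M} {v : E} {e : OpenPartialHomeomorph M E}
  {X : Fin m → ℝ → E} {J : OpenPartialHomeomorph M E → ℝ → E}

theorem comp_ha_riem {G : E → E →L[ℝ] E →L[ℝ] ℝ} {U : Set E} (h : LocMetric G U) {y : E}
    (hy : y ∈ U) (u v w : E) : riem G y u v w = fderiv ℝ (chrL G) y u v w -
      fderiv ℝ (chrL G) y v u w + chrL G y u (chrL G y v w) - chrL G y v (chrL G y u w) := by
  rw [riem, h.loc_fderiv_chr hy, h.loc_fderiv_chr hy]
  simp only [chrL_apply]

theorem comp_ha_skew {G : E → E →L[ℝ] E →L[ℝ] ℝ} {U : Set E} (h : LocMetric G U) {y : E}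
    (hy : y ∈ U) (u v w z : E) : G y (riem G y u v w) z = -G y (riem G y u v z) w := by
  have e : riem G y u v (w + z) = riem G y u v w + riem G y u v z := by
    simp only [comp_ha_riem h hy, map_add]
    abel
  have k := h.riem_skew hy u v (w + z)
  simp only [e, map_add, _root_.add_apply, h.riem_skew hy] at k
  linarith

theorem riem_pair {G : E → E →L[ℝ] E →L[ℝ] ℝ} {U : Set E} (h : LocMetric G U) {y : E} (hy : y ∈ U)
    (a b v : E) : G y (riem G y a v v) b = G y (riem G y b v v) a := by
  have e : riem G y a v b = riem G y b v a - riem G y b a v := by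
    simp only [comp_ha_riem h hy, chrL_apply]
    rw [h.loc_fderiv_chr_symm hy a v b, h.loc_fderiv_chr_symm hy v a b,
      h.loc_fderiv_chr_symm hy b v a, h.chr_symm hy v b, h.chr_symm hy a b, h.chr_symm hy v a]
    abel
  rw [comp_ha_skew h hy a v v b, comp_ha_skew h hy b v v a, e, map_sub, _root_.sub_apply,
    h.riem_skew hy, sub_zero]

theorem tr_rop (he : e ∈ atlas E M) {t : ℝ} (ht : g.geo x v t ∈ e.source) (w : E) :
    tr e (g.geo x v t) (rop g (g.geo x v) t w) = riem (g.g e) (e (g.geo x v t))
      (tr e (g.geo x v t) w) (deriv (e ∘ g.geo x v) t) (deriv (e ∘ g.geo x v) t) := by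
  have hc := chart_mem_atlas E (g.geo x v t)
  have hx := mem_chart_source E (g.geo x v t)
  have e1 : (e ∘ (chartAt E (g.geo x v t)).symm) (chartAt E (g.geo x v t) (g.geo x v t)) =
      e (g.geo x v t) := congrArg e ((chartAt E (g.geo x v t)).left_inv hx)
  have k := P219.riem_transform (g.loc hc) (g.loc he) (mem_chart_target E _)
    (e1 ▸ e.map_source ht) ((tr_contDiffAt hc he hx ht).of_le ENat.LEInfty.out)
    (g.compat_eventually hc he hx ht) w (vel E (g.geo x v) t) (vel E (g.geo x v) t)
  rw [e1] at k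
  rw [(hasDerivAt_geo g he x v ht).deriv]
  exact k

theorem rmat_symm (t : ℝ) : (rmat g (g.geo x v) X t)ᵀ = rmat g (g.geo x v) X t := by
  ext i j
  exact riem_pair (g.loc (chart_mem_atlas E _)) (mem_chart_target E _) _ _ _

theorem comp_ha_app {F : Type*} [NormedAddCommGroup F] [NormedSpace ℝ F]
    {C : ℝ → E →L[ℝ] E →L[ℝ] F} {a b : ℝ → E} {t : ℝ} (hC : ContinuousAt C t)
    (ha : ContinuousAt a t) (hb : ContinuousAt b t) :
    ContinuousAt (fun s => C s (a s) (b s)) t := (hC.clm_apply ha).clm_apply hb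

theorem comp_ha_der {F : Type*} [NormedAddCommGroup F] [NormedSpace ℝ F] {C : E → F} {U : Set E}
    (hU : IsOpen U) (h : ContDiffOn ℝ ∞ C U) {y a : ℝ → E} {t : ℝ} (ht : y t ∈ U)
    (hy : ContinuousAt y t) (ha : ContinuousAt a t) :
    ContinuousAt (fun s => C (y s)) t ∧ ContinuousAt (fun s => fderiv ℝ C (y s) (a s)) t :=
  ⟨(h.continuousOn.continuousAt (hU.mem_nhds ht)).comp hy,
    (((h.continuousOn_fderiv_of_isOpen hU (by exact_mod_cast le_top)).continuousAt
      (hU.mem_nhds ht)).comp hy).clm_apply ha⟩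

theorem comp_ha_cont {G : E → E →L[ℝ] E →L[ℝ] ℝ} {U : Set E} (h : LocMetric G U)
    {y a b c : ℝ → E} {t : ℝ} (hU : y t ∈ U) (hy : ContinuousAt y t) (ha : ContinuousAt a t)
    (hb : ContinuousAt b t) (hc : ContinuousAt c t) :
    ContinuousAt (fun s => G (y s) (riem G (y s) (a s) (b s) (b s)) (c s)) t := by
  have c1 := (comp_ha_der h.isOpen h.smooth hU hy ha).1
  obtain ⟨c2, c3⟩ := comp_ha_der h.isOpen h.contDiffOn_chrL hU hy ha
  have c4 := (comp_ha_der h.isOpen h.contDiffOn_chrL hU hy hb).2
  have c5 : ContinuousAt (fun s => fderiv ℝ (chrL G) (y s) (a s) (b s) (b s) -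
      fderiv ℝ (chrL G) (y s) (b s) (a s) (b s) + chrL G (y s) (a s) (chrL G (y s) (b s) (b s)) -
      chrL G (y s) (b s) (chrL G (y s) (a s) (b s))) t :=
    (((comp_ha_app c3 hb hb).sub (comp_ha_app c4 ha hb)).add
      (comp_ha_app c2 ha (comp_ha_app c2 hb hb))).sub (comp_ha_app c2 hb (comp_ha_app c2 ha hb))
  refine comp_ha_app c1 (c5.congr ?_) hc
  filter_upwards [hy (h.isOpen.mem_nhds hU)] with s hs
  exact (comp_ha_riem h hs _ _ _).symm

theorem Fr.continuous_rmat (h : Fr g (g.geo x v) X) : Continuous (rmat g (g.geo x v) X) := by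
  refine continuous_matrix fun i j => continuous_iff_continuousAt.2 fun t => ?_
  have he := chart_mem_atlas E (g.geo x v t)
  have hx := mem_chart_source E (g.geo x v t)
  have hg := (g.geo_isGeodesic x v).2 _ he t (mem_univ t) hx
  refine (comp_ha_cont (g.loc he) (y := chartAt E (g.geo x v t) ∘ g.geo x v)
    (mem_chart_target E _) hg.1.continuousAt (h.par j _ he t hx).continuousAt hg.2.continuousAt
    (h.par i _ he t hx).continuousAt).congr ?_
  filter_upwards [(g.continuous_geo x v).continuousAt
    ((chartAt E (g.geo x v t)).open_source.mem_nhds hx)] with s hs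
  rw [rmat, Matrix.of_apply, ip_eq g he hs, tr_rop he hs]
  rfl

end Vale.Agent.P231
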