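import Vale.Agent.P231.Stmt
import Vale.Agent.P231.M.Defs
import Vale.Agent.P234.Cut

/-!
Working definitions for the geometric part.  A vector field along `γ` is a map `X : ℝ → E`, `X t` being read in `chartAt (γ t)`;
`tr e (γ t) (X t)` are its components in the chart `e`.  (No task here.)
-/

namespace Vale.Agent.P231

open scoped ContDiff Manifold ENNReal Topology
open Vale.Agent.P255 Vale.Agent.P234 Set Filter Real

variable {E M : Type*} [NormedAddCommGroup E] [NormedSpace ℝ E] [FiniteDimensional ℝ E]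
  [TopologicalSpace M] [ChartedSpace E M] [IsManifold 𝓘(ℝ, E) ∞ M] [T2Space M] [CompactSpace M]
  (g : Metric E M) {m : ℕ}

/-- The working form of the Blaschke condition. -/
structure Bl (D : ℝ) : Prop where
  pos : 0 < D
  min : ∀ x v, nrm g x v ≤ D → P234.Min g x v
  le : ∀ x y, rdist g x y ≤ D

/-- Geodesics of speed `2 D / π` have period `π`. -/
def Per (D : ℝ) : Prop :=
  ∀ x v, nrm g x v = 2 * D / π → ∀ t, g.geo x v (t + π) = g.geo x v t

/-- The differential of the exponential map. -/
noncomputable def dexp (x : M) (v : E) : E →L[ℝ] E :=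
  fderiv ℝ (chartAt E (g.exp x v) ∘ g.exp x) v

/-- Parallel fields along `γ`. -/
def IsPar (γ : ℝ → M) (X : ℝ → E) : Prop :=
  ∀ e ∈ atlas E M, ∀ t, γ t ∈ e.source → HasDerivAt (fun s => tr e (γ s) (X s))
    (-chr (g.g e) (e (γ t)) (deriv (e ∘ γ) t) (tr e (γ t) (X t))) t

/-- A parallel orthonormal frame of the normal bundle of `γ`. -/
structure Fr (γ : ℝ → M) (X : Fin m → ℝ → E) : Prop where
  par : ∀ i, IsPar g γ (X i)
  on : ∀ t i j, g.ip (γ t) (X i t) (X j t) = if i = j then 1 else 0
  nor : ∀ t i, g.ip (γ t) (X i t) (vel E γ t) = 0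

/-- The curvature operator `w ↦ R(w, γ') γ'` at time `t`. -/
noncomputable def rop (γ : ℝ → M) (t : ℝ) (w : E) : E :=
  riem (g.g (chartAt E (γ t))) (chartAt E (γ t) (γ t)) w (vel E γ t) (vel E γ t)

/-- The matrix of the curvature operator in the frame. -/
noncomputable def rmat (γ : ℝ → M) (X : Fin m → ℝ → E) (t : ℝ) : Mat m :=
  Matrix.of fun i j => g.ip (γ t) (rop g γ t (X j t)) (X i t)

/-- The normal components of a Jacobi field. -/
noncomputable def cpt (γ : ℝ → M) (X : Fin m → ℝ → E) (J : OpenPartialHomeomorph M E → ℝ → E)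
    (t : ℝ) (i : Fin m) : ℝ := g.ip (γ t) (J (chartAt E (γ t)) t) (X i t)

/-- The normal components of its covariant derivative. -/
noncomputable def cpt1 (γ : ℝ → M) (X : Fin m → ℝ → E) (J : OpenPartialHomeomorph M E → ℝ → E)
    (t : ℝ) (i : Fin m) : ℝ :=
  g.ip (γ t) (g.cov γ (chartAt E (γ t)) (J (chartAt E (γ t))) t) (X i t)

/-- The vector with normal components `z` and tangential component `a`. -/
noncomputable def cmb (γ : ℝ → M) (X : Fin m → ℝ → E) (t : ℝ) (z : Fin m → ℝ) (a : ℝ) : E :=
  ∑ i, z i • X i t + a • vel E γ t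

/-- The Jacobian of the exponential map with respect to the metrics at both ends. -/
noncomputable def jac (x : M) (v : E) : ℝ :=
  √((Matrix.of fun i j => g.ip (g.exp x v) (dexp g x v (Module.finBasis ℝ E i))
      (dexp g x v (Module.finBasis ℝ E j))).det /
    (Matrix.of fun i j => g.ip x (Module.finBasis ℝ E i) (Module.finBasis ℝ E j)).det)

/-- Continuity of a function on the tangent bundle. -/
def TCont (Φ : M → E → ℝ) : Prop :=
  ∀ (x₀ : M) (u₀ : E) (l : Filter (M × E)), TC l Prod.fst Prod.snd x₀ u₀ →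
    Tendsto (fun p : M × E => Φ p.1 p.2) l (𝓝 (Φ x₀ u₀))

/-- The pull-back of `Φ` under the time `c` geodesic flow. -/
noncomputable def flw (Φ : M → E → ℝ) (c : ℝ) (x : M) (v : E) : ℝ :=
  Φ (g.geo x v c) (vel E (g.geo x v) c)

/-- The integral of the Jacobian over a closed geodesic. -/
noncomputable def avJ (x : M) (v : E) (τ : ℝ) : ℝ :=
  ∫ s in (0 : ℝ)..π, jac g (g.geo x v s) (τ • vel E (g.geo x v) s)

/-- The model Jacobian. -/
noncomputable def mdl (m k : ℕ) (τ : ℝ) : ℝ := (sin τ / τ) ^ m * cos τ ^ k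

/-- The infinitesimal symmetry at `x`. -/
def Sym (D : ℝ) (x : M) : Prop :=
  ∀ v, nrm g x v < D → ∀ w, nrm g (g.exp x v) (dexp g x v w) = nrm g (g.exp x (-v)) (dexp g x (-v) w)

open Classical in
/-- A minimising vector from `x` to `y`. -/
noncomputable def lg (x y : M) : E := if h : Ex g x y then h.choose else 0

end Vale.Agent.P231
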