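import Vale.Agent.P231.G.FormB

/-!
# The Jacobi system of a geodesic, the differential of `exp`, periodicity  (TASK)

`exists_jacobi`: `J = varE g e p (a, b - chr G (e x) v a)` with `e = chartAt x`, `p = (e x, v)` (`varE_isJacobi`, `geoE_self`, `varE_eq`, `varE_hasDerivAt`, `fv_st_zero`, `geo_deriv`).
`exists_sys`: columns of `C` (`S`) are the components `cpt` of the Jacobi fields with data `(X j 0, 0)` (`(0, X j 0)`), `cpt_deriv`, `cpt1_deriv`, `on`.
`dexp_cmb`: with `x' = γ s`, `v' = vel γ s`, `geo x' v' = γ (s + ·)` (`geo_add`).  `J = varJ x' v' w` is a Jacobi field along it with `J 0 = 0`, `J' 0 = w`, and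
`J (chartAt ..) c = dexp x' (c • v') (c • w)` (`exp_smul`, chain rule, `contDiffAt_exp`).  The frame `fun i t => X i (s + t)` is a frame along `geo x' v'` (shift of `IsPar`), its `rmat` is
`rmat (s + t)`; so `y t = cpt (t - s)` solves the system of `h` and `Sys.sol_pr` gives the normal components; the tangential one is `IsJacobi.gauss`; finish with `Fr.expand`, `Fr.ip_cmb`.
`exists_sper`: `P i j = ip (X i (t + π)) (X j t)` is constant (`IsPar.shift`, `ip_const`), orthogonal (`Fr.expand` of `X i (t+π)`, `vel (t + π) = vel t`).  Periodic Jacobi fields: let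
`N q = (q.1, (λ / √(G q.1 q.2 q.2)) • q.2)`, `λ = 2 D / π`; it is differentiable at `p`, `N p = p`, `fderiv N p δ = (δ.1, δ.2 + c • v)`, and `geoE (N q) (t + π) = geoE (N q) t` for `q` near `p` (`Per`,
`ip_trI`), so `varE p (fderiv N p δ)` is `π`-periodic (chain rule, `depN`); its initial normal components are those of `δ` (`nor`).  Hence for all `a b` there is a solution with
`y 0 = a`, `y1 0 = b`, `y (t + π) = P y t`; compare with `Sys.sol`.  This file holds one portion of the plan above.  Prefix helper names by `form_hc_`.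
-/

namespace Vale.Agent.P231

open scoped ContDiff Manifold ENNReal Topology
open Vale.Agent.P255 Vale.Agent.P234 Set Filter Real Matrix

variable {E M : Type*} [NormedAddCommGroup E] [NormedSpace ℝ E] [FiniteDimensional ℝ E]
  [TopologicalSpace M] [ChartedSpace E M] [IsManifold 𝓘(ℝ, E) ∞ M] [T2Space M] [CompactSpace M]
  {g : Metric E M} {m : ℕ} {x : M} {v : E} {X : Fin m → ℝ → E} {C S C1 S1 : ℝ → Mat m} {D : ℝ}

theorem form_hc_per (hD : 0 < D) (hP : Per g D) (hv : nrm g x v = 2 * D / π) (a b : E) :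
    ∃ J, g.IsJacobi (g.geo x v) univ J ∧ J (chartAt E x) 0 = a ∧
      (∃ c : ℝ, g.cov (g.geo x v) (chartAt E x) (J (chartAt E x)) 0 = b + c • v) ∧
      ∀ t, J (chartAt E (g.geo x v t)) (t + π) = J (chartAt E (g.geo x v t)) t := by
  have he : chartAt E x ∈ atlas E M := chart_mem_atlas E x
  have hγ := geoE_self g x v
  have hx : chartAt E x x ∈ (chartAt E x).target := mem_chart_target E x
  have hvd := g.geo_deriv x v
  have hG : g.g (chartAt E x) (chartAt E x x) v v = (2 * D / π) ^ 2 := by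
    rw [← hv, nrm_sq]; rfl
  have h00 : g.geo x v 0 = x := g.geo_zero x v
  have hx0 : chartAt E x (g.geo x v 0) = chartAt E x x := by rw [h00]
  have hs0 : g.geo x v 0 ∈ (chartAt E x).source := by rw [h00]; exact mem_chart_source E x
  have hT := hP x v hv
  generalize chartAt E x x = y at hγ hx hG hx0
  generalize chartAt E x = e at he hγ hx hvd hG hx0 hs0
  have hl : 0 < 2 * D / π := by positivity
  have hGd : DifferentiableAt ℝ (fun q : E × E => g.g e q.1 q.2 q.2) (y, v) := by
    have h1 : DifferentiableAt ℝ (g.g e) y :=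
      ((g.smooth e he).contDiffAt (e.open_target.mem_nhds hx)).differentiableAt (by simp)
    exact ((h1.comp (y, v) differentiableAt_fst).clm_apply differentiableAt_snd).clm_apply
      differentiableAt_snd
  have hG0 : 0 < g.g e y v v := hG ▸ pow_pos hl 2
  obtain ⟨φ, hφ⟩ : ∃ φ : E × E → ℝ, φ = fun q => 2 * D / π / √(g.g e q.1 q.2 q.2) := ⟨_, rfl⟩
  have hφd : DifferentiableAt ℝ φ (y, v) := by
    rw [hφ]
    simp only [div_eq_mul_inv (2 * D / π)]
    exact ((hGd.sqrt hG0.ne').inv (Real.sqrt_pos.2 hG0).ne').const_mul _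
  have hφ1 : φ (y, v) = 1 := by
    rw [hφ]
    simp only
    rw [hG, Real.sqrt_sq hl.le, div_self hl.ne']
  have hN : HasFDerivAt (fun q : E × E => (q.1, φ q • q.2)) _ (y, v) :=
    hasFDerivAt_fst.prodMk (hφd.hasFDerivAt.smul hasFDerivAt_snd)
  have hN0 : ((y, φ (y, v) • v) : E × E) = (y, v) := by rw [hφ1, one_smul]
  have hper : ∀ᶠ q : E × E in 𝓝 (y, v), ∀ t,
      geoE g e q.1 (φ q • q.2) (t + π) = geoE g e q.1 (φ q • q.2) t := by
    filter_upwards [continuousAt_fst.preimage_mem_nhds (e.open_target.mem_nhds hx),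
      hGd.continuousAt.eventually (lt_mem_nhds hG0)] with q h1 h2
    refine hP _ _ ?_
    have h3 : 0 < √(g.g e q.1 q.2 q.2) := Real.sqrt_pos.2 h2
    rw [map_smul, nrm_smul, nrm, ipr_eq, ip_trI g he h1, hφ]
    simp only
    rw [abs_of_pos (div_pos hl h3), div_mul_cancel₀ _ h3.ne']
  obtain ⟨δ, hδ⟩ : ∃ δ : E × E, δ = (a, b - chr (g.g e) y v a) := ⟨_, rfl⟩
  have h0 : geoE g e (y, v).1 (y, v).2 0 ∈ e.source := hγ ▸ hs0
  refine ⟨varE g e (y, v) (δ.1, δ.2 + fderiv ℝ φ (y, v) δ • v),
    hγ ▸ varE_isJacobi g he (p := (y, v)) hx _, ?_, ⟨fderiv ℝ φ (y, v) δ, ?_⟩, fun t => ?_⟩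
  · rw [varE_eq g he he hx h0, fv_st_zero g he hx, hδ]
  · rw [Metric.cov, (varE_hasDerivAt g he he hx h0 _).deriv, varE_eq g he he hx h0,
      fv_st_zero g he hx, hvd, hx0]
    simp only [hδ]
    abel
  · have he' : chartAt E (g.geo x v t) ∈ atlas E M := chart_mem_atlas E _
    have hs' : g.geo x v t ∈ (chartAt E (g.geo x v t)).source := mem_chart_source E _
    generalize chartAt E (g.geo x v t) = e' at he' hs'
    have key : ∀ s, g.geo x v s ∈ e'.source →
        fderiv ℝ (fun q : E × E => e' (geoE g e q.1 (φ q • q.2) s)) (y, v) δ =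
          varE g e (y, v) (δ.1, δ.2 + fderiv ℝ φ (y, v) δ • v) e' s := by
      intro s hs
      have h1 : DifferentiableAt ℝ (fun q : E × E => e' (geoE g e q.1 q.2 s)) (y, v) :=
        (depN g 1 he he' (p := (y, v)) hx (hγ ▸ hs)).2.fst.differentiableAt (by simp)
      have h2 := h1.hasFDerivAt
      nth_rw 2 [← hN0] at h2
      have h3 := (h2.comp (y, v) hN).fderiv
      change fderiv ℝ (fun q : E × E => e' (geoE g e q.1 (φ q • q.2) s)) (y, v) = _ at h3
      rw [h3, varE]
      simp [hφ1]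
    rw [← key t hs', ← key (t + π) (hT t ▸ hs')]
    congr 1
    exact Filter.EventuallyEq.fderiv_eq (hper.mono fun q hq => by simp only [hq t])

theorem form_hc_ip (h : Fr g (g.geo x v) X) (t : ℝ) (z : Fin m → ℝ) (a : ℝ) (i : Fin m) :
    g.ip (g.geo x v t) (cmb (g.geo x v) X t z a) (X i t) = z i := by
  rw [ip_symm]
  simp [cmb, h.on, h.nor]

omit [FiniteDimensional ℝ E] [IsManifold 𝓘(ℝ, E) ∞ M] [T2Space M] [CompactSpace M] in
theorem form_hc_vel {γ : ℝ → M} {T : ℝ} (hT : ∀ t, γ (t + T) = γ t) (t : ℝ) :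
    vel E γ (t + T) = vel E γ t := by
  rw [vel, vel, hT, ← deriv_comp_add_const]
  simp only [Function.comp_def, hT]

theorem Fr.exists_sper (h : Fr g (g.geo x v) X) (hE : Module.finrank ℝ E = m + 1) (hD : 0 < D)
    (hP : Per g D) (hv : nrm g x v = 2 * D / π) (hS : Sys (rmat g (g.geo x v) X) C S C1 S1) :
    ∃ P, SPer C S P := by
  have hT := hP x v hv
  have hv0 : v ≠ 0 := by
    rintro rfl
    rw [nrm_zero] at hv
    exact (by positivity : 0 < 2 * D / π).ne hv
  obtain ⟨P, hPd⟩ : ∃ P : Mat m,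
      P = Matrix.of fun i j => g.ip (g.geo x v 0) (X i (0 + π)) (X j 0) := ⟨_, rfl⟩
  have hX : ∀ t i, X i (t + π) = cmb (g.geo x v) X t (P i) 0 := by
    intro t i
    have h1 := h.expand hE hv0 t (X i (t + π))
    have h2 := h.nor (t + π) i
    rw [hT, form_hc_vel hT] at h2
    rw [h2, zero_div] at h1
    rw [h1, hPd]
    congr 1
    funext j
    exact ((h.par i).shift hT).ip_const (h.par j) t 0
  have key : ∀ a b : Fin m → ℝ, ∀ t,
      C (t + π) *ᵥ a + S (t + π) *ᵥ b = P *ᵥ (C t *ᵥ a + S t *ᵥ b) := by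
    intro a b t
    obtain ⟨J, hJ, h1, ⟨c, h2⟩, h3⟩ := form_hc_per hD hP hv (cmb (g.geo x v) X 0 a 0)
      (cmb (g.geo x v) X 0 b 0)
    have h4 := hS.sol (h.cpt_deriv hJ) (h.cpt1_deriv hE hv0 hJ)
    have e0 : chartAt E (g.geo x v 0) = chartAt E x := by rw [g.geo_zero]
    have h5 : cpt g (g.geo x v) X J 0 = a := by
      funext i
      rw [cpt, e0, h1, form_hc_ip h]
    have h6 : cpt1 g (g.geo x v) X J 0 = b := by
      funext i
      have h7 := h.nor 0 i
      rw [vel_geo_zero, ip_symm] at h7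
      rw [cpt1, e0, h2, map_add, map_smul, _root_.add_apply, _root_.smul_apply, h7, smul_zero,
        add_zero, form_hc_ip h]
    rw [h5, h6] at h4
    rw [← h4, ← h4]
    funext i
    rw [cpt, hT, h3, hX, cmb, zero_smul, add_zero, map_sum]
    simp only [map_smul, smul_eq_mul]
    rfl
  refine ⟨P, ?_, fun t => ⟨?_, ?_⟩⟩
  · ext i j
    have h1 := h.on (0 + π) i j
    rw [hT, hX, hX, h.ip_cmb, zero_mul, zero_mul, add_zero] at h1
    rw [one_apply, ← h1]
    rfl
  · ext i j
    have h1 := congrFun (key (Pi.single j 1) 0 t) i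
    rw [mulVec_zero, mulVec_zero, add_zero, add_zero, mulVec_mulVec] at h1
    simpa using h1
  · ext i j
    have h1 := congrFun (key 0 (Pi.single j 1) t) i
    rw [mulVec_zero, mulVec_zero, zero_add, zero_add, mulVec_mulVec] at h1
    simpa using h1

end Vale.Agent.P231
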