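import Vale.Agent.P231.G.Comp
import Vale.Agent.P231.G.Bl
import Vale.Agent.P231.M.Sys

/-!
# The Jacobi system of a geodesic, the differential of `exp`, periodicity  (TASK)

`exists_jacobi`: `J = varE g e p (a, b - chr G (e x) v a)` with `e = chartAt x`, `p = (e x, v)` (`varE_isJacobi`, `geoE_self`, `varE_eq`, `varE_hasDerivAt`, `fv_st_zero`, `geo_deriv`).
`exists_sys`: columns of `C` (`S`) are the components `cpt` of the Jacobi fields with data `(X j 0, 0)` (`(0, X j 0)`), `cpt_deriv`, `cpt1_deriv`, `on`.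
`dexp_cmb`: with `x' = γ s`, `v' = vel γ s`, `geo x' v' = γ (s + ·)` (`geo_add`).  `J = varJ x' v' w` is a Jacobi field along it with `J 0 = 0`, `J' 0 = w`, and
`J (chartAt ..) c = dexp x' (c • v') (c • w)` (`exp_smul`, chain rule, `contDiffAt_exp`).  The frame `fun i t => X i (s + t)` is a frame along `geo x' v'` (shift of `IsPar`), its `rmat` is
`rmat (s + t)`; so `y t = cpt (t - s)` solves the system of `h` and `Sys.sol_pr` gives the normal components; the tangential one is `IsJacobi.gauss`; finish with `Fr.expand`, `Fr.ip_cmb`.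
`exists_sper`: `P i j = ip (X i (t + π)) (X j t)` is constant (`IsPar.shift`, `ip_const`), orthogonal (`Fr.expand` of `X i (t+π)`, `vel (t + π) = vel t`).  Periodic Jacobi fields: let
`N q = (q.1, (λ / √(G q.1 q.2 q.2)) • q.2)`, `λ = 2 D / π`; it is differentiable at `p`, `N p = p`, `fderiv N p δ = (δ.1, δ.2 + c • v)`, and `geoE (N q) (t + π) = geoE (N q) t` for `q` near `p` (`Per`,
`ip_trI`), so `varE p (fderiv N p δ)` is `π`-periodic (chain rule, `depN`); its initial normal components are those of `δ` (`nor`).  Hence for all `a b` there is a solution with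
`y 0 = a`, `y1 0 = b`, `y (t + π) = P y t`; compare with `Sys.sol`.  This file holds one portion of the plan above.  Prefix helper names by `form_ha_`.
-/

namespace Vale.Agent.P231

open scoped ContDiff Manifold ENNReal Topology
open Vale.Agent.P255 Vale.Agent.P234 Set Filter Real Matrix

variable {E M : Type*} [NormedAddCommGroup E] [NormedSpace ℝ E] [FiniteDimensional ℝ E]
  [TopologicalSpace M] [ChartedSpace E M] [IsManifold 𝓘(ℝ, E) ∞ M] [T2Space M] [CompactSpace M]
  {g : Metric E M} {m : ℕ} {x : M} {v : E} {X : Fin m → ℝ → E} {C S C1 S1 : ℝ → Mat m} {D : ℝ}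

theorem exists_jacobi (g : Metric E M) (x : M) (v a b : E) :
    ∃ J, g.IsJacobi (g.geo x v) univ J ∧ J (chartAt E x) 0 = a ∧
      g.cov (g.geo x v) (chartAt E x) (J (chartAt E x)) 0 = b := by
  have he := chart_mem_atlas E x
  have hq : (chartAt E x x, v).1 ∈ (chartAt E x).target := mem_chart_target E x
  have h0 : geoE g (chartAt E x) (chartAt E x x, v).1 (chartAt E x x, v).2 0 ∈
      (chartAt E x).source := by
    rw [geoE_self, g.geo_zero]
    exact mem_chart_source E x
  obtain ⟨δ, hδ⟩ : ∃ δ : E × E, δ = (a, b - chr (g.g (chartAt E x)) (chartAt E x x) v a) :=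
    ⟨_, rfl⟩
  have hJ := varE_isJacobi g he hq δ
  rw [geoE_self] at hJ
  have h3 : varE g (chartAt E x) (chartAt E x x, v) δ (chartAt E x) 0 = δ.1 := by
    rw [varE_eq g he he hq h0, fv_st_zero g he hq]
  have h4 : deriv (varE g (chartAt E x) (chartAt E x x, v) δ (chartAt E x)) 0 = δ.2 := by
    rw [(varE_hasDerivAt g he he hq h0 δ).deriv, fv_st_zero g he hq]
  refine ⟨_, hJ, by rw [h3, hδ], ?_⟩
  rw [Metric.cov, h3, h4, g.geo_zero, g.geo_deriv, hδ]
  exact sub_add_cancel _ _

theorem Fr.exists_sys (h : Fr g (g.geo x v) X) (hE : Module.finrank ℝ E = m + 1) (hv : v ≠ 0) :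
    ∃ C S C1 S1, Sys (rmat g (g.geo x v) X) C S C1 S1 := by
  have key : ∀ a b : Fin m → E, ∃ Y Y1 : ℝ → Mat m, (∀ t, MD Y (Y1 t) t) ∧
      (∀ t, MD Y1 (-(rmat g (g.geo x v) X t * Y t)) t) ∧
      (∀ i j, Y 0 i j = g.ip (g.geo x v 0) (a j) (X i 0)) ∧
      ∀ i j, Y1 0 i j = g.ip (g.geo x v 0) (b j) (X i 0) := by
    intro a b
    choose J hJ h1 h2 using fun j => exists_jacobi g x v (a j) (b j)
    refine ⟨fun t => of fun i j => cpt g (g.geo x v) X (J j) t i,
      fun t => of fun i j => cpt1 g (g.geo x v) X (J j) t i, fun t i j => h.cpt_deriv (hJ j) t i,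
      fun t i j => h.cpt1_deriv hE hv (hJ j) t i, fun i j => ?_, fun i j => ?_⟩
    · simp only [of_apply, cpt, g.geo_zero, h1]
    · simp only [of_apply, cpt1, g.geo_zero, h2]
  have hon : ∀ i j, g.ip (g.geo x v 0) (X j 0) (X i 0) = (1 : Mat m) i j := fun i j => by
    rw [h.on, one_apply]
    simp only [eq_comm]
  obtain ⟨C, C1, c1, c2, c3, c4⟩ := key (fun j => X j 0) fun _ => 0
  obtain ⟨S, S1, s1, s2, s3, s4⟩ := key (fun _ => 0) fun j => X j 0
  refine ⟨C, S, C1, S1, h.continuous_rmat, rmat_symm, c1, s1, c2, s2, ?_, ?_, ?_, ?_⟩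
  · ext i j
    rw [c3, hon]
  · ext i j
    simp [s3]
  · ext i j
    simp [c4]
  · ext i j
    rw [s4, hon]

end Vale.Agent.P231
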