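import Vale.Agent.P231.G.FormA

/-!
# The Jacobi system of a geodesic, the differential of `exp`, periodicity  (TASK)

`exists_jacobi`: `J = varE g e p (a, b - chr G (e x) v a)` with `e = chartAt x`, `p = (e x, v)` (`varE_isJacobi`, `geoE_self`, `varE_eq`, `varE_hasDerivAt`, `fv_st_zero`, `geo_deriv`).
`exists_sys`: columns of `C` (`S`) are the components `cpt` of the Jacobi fields with data `(X j 0, 0)` (`(0, X j 0)`), `cpt_deriv`, `cpt1_deriv`, `on`.
`dexp_cmb`: with `x' = γ s`, `v' = vel γ s`, `geo x' v' = γ (s + ·)` (`geo_add`).  `J = varJ x' v' w` is a Jacobi field along it with `J 0 = 0`, `J' 0 = w`, and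
`J (chartAt ..) c = dexp x' (c • v') (c • w)` (`exp_smul`, chain rule, `contDiffAt_exp`).  The frame `fun i t => X i (s + t)` is a frame along `geo x' v'` (shift of `IsPar`), its `rmat` is
`rmat (s + t)`; so `y t = cpt (t - s)` solves the system of `h` and `Sys.sol_pr` gives the normal components; the tangential one is `IsJacobi.gauss`; finish with `Fr.expand`, `Fr.ip_cmb`.
`exists_sper`: `P i j = ip (X i (t + π)) (X j t)` is constant (`IsPar.shift`, `ip_const`), orthogonal (`Fr.expand` of `X i (t+π)`, `vel (t + π) = vel t`).  Periodic Jacobi fields: let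
`N q = (q.1, (λ / √(G q.1 q.2 q.2)) • q.2)`, `λ = 2 D / π`; it is differentiable at `p`, `N p = p`, `fderiv N p δ = (δ.1, δ.2 + c • v)`, and `geoE (N q) (t + π) = geoE (N q) t` for `q` near `p` (`Per`,
`ip_trI`), so `varE p (fderiv N p δ)` is `π`-periodic (chain rule, `depN`); its initial normal components are those of `δ` (`nor`).  Hence for all `a b` there is a solution with
`y 0 = a`, `y1 0 = b`, `y (t + π) = P y t`; compare with `Sys.sol`.  This file holds one portion of the plan above.  Prefix helper names by `form_hb_`.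
-/

namespace Vale.Agent.P231

open scoped ContDiff Manifold ENNReal Topology
open Vale.Agent.P255 Vale.Agent.P234 Set Filter Real Matrix

variable {E M : Type*} [NormedAddCommGroup E] [NormedSpace ℝ E] [FiniteDimensional ℝ E]
  [TopologicalSpace M] [ChartedSpace E M] [IsManifold 𝓘(ℝ, E) ∞ M] [T2Space M] [CompactSpace M]
  {g : Metric E M} {m : ℕ} {x : M} {v : E} {X : Fin m → ℝ → E} {C S C1 S1 : ℝ → Mat m} {D : ℝ}

omit [FiniteDimensional ℝ E] [IsManifold 𝓘(ℝ, E) ∞ M] [T2Space M] [CompactSpace M] in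
theorem form_hb_deriv (γ : ℝ → M) (e : OpenPartialHomeomorph M E) (s t : ℝ) :
    deriv (e ∘ fun r => γ (s + r)) t = deriv (e ∘ γ) (s + t) :=
  deriv_comp_const_add (e ∘ γ) s t

omit [FiniteDimensional ℝ E] [IsManifold 𝓘(ℝ, E) ∞ M] [T2Space M] [CompactSpace M] in
theorem form_hb_vel (γ : ℝ → M) (s t : ℝ) : vel E (fun r => γ (s + r)) t = vel E γ (s + t) :=
  form_hb_deriv γ _ s t

omit [IsManifold 𝓘(ℝ, E) ∞ M] [T2Space M] [CompactSpace M] in
theorem form_hb_fr {γ : ℝ → M} (h : Fr g γ X) (s : ℝ) :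
    Fr g (fun r => γ (s + r)) fun i r => X i (s + r) where
  par i e he t ht := by
    rw [form_hb_deriv]
    exact (h.par i e he (s + t) ht).comp_const_add s t
  on t := h.on (s + t)
  nor t i := by
    rw [form_hb_vel]
    exact h.nor (s + t) i

theorem form_hb_dexp (g : Metric E M) (x : M) (v w : E) (c : ℝ) :
    dexp g x (c • v) (c • w) = g.varJ x v w (chartAt E (g.geo x v c)) c := by
  unfold dexp Metric.varJ
  rw [g.exp_smul]
  have h1 : DifferentiableAt ℝ (chartAt E (g.geo x v c) ∘ g.exp x) (c • v) :=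
    (g.contDiffAt_exp x (c • v) (chart_mem_atlas E _)
      (by rw [g.exp_smul]; exact mem_chart_source E _)).differentiableAt one_ne_zero
  have h2 := h1.hasFDerivAt.comp v ((hasFDerivAt_id (𝕜 := ℝ) v).const_smul c)
  have h3 : (fun u => chartAt E (g.geo x v c) (g.geo x u c)) =
      (chartAt E (g.geo x v c) ∘ g.exp x) ∘ HSMul.hSMul c := by
    funext u
    simp only [Function.comp_apply, g.exp_smul]
  rw [h3, h2.fderiv]
  rfl

theorem form_hb_core {R : ℝ → Mat m} (h : Fr g (g.geo x v) X) (hE : Module.finrank ℝ E = m + 1)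
    (hv : v ≠ 0) (hS : Sys R C S C1 S1) {s : ℝ} (hR : ∀ t, rmat g (g.geo x v) X t = R (s + t))
    (c : ℝ) (z : Fin m → ℝ) (a : ℝ) :
    dexp g x (c • v) (c • cmb (g.geo x v) X 0 z a) =
      cmb (g.geo x v) X c (pr C S (s + c) s *ᵥ z) (c * a) := by
  set w := cmb (g.geo x v) X 0 z a with hw
  have hJ := g.varJ_isJacobi x v w univ
  have h0 : g.varJ x v w (chartAt E (g.geo x v 0)) 0 = 0 := by
    rw [g.geo_zero]
    exact g.varJ_zero x v w
  have h1 : deriv (g.varJ x v w (chartAt E (g.geo x v 0))) 0 = w := by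
    rw [g.geo_zero]
    exact g.varJ_deriv x v w
  have d1 : ∀ t, VD (fun r => cpt g (g.geo x v) X (g.varJ x v w) (r - s))
      (cpt1 g (g.geo x v) X (g.varJ x v w) (t - s)) t := fun t i =>
    (h.cpt_deriv hJ (t - s) i).comp_sub_const t s
  have d2 : ∀ t, VD (fun r => cpt1 g (g.geo x v) X (g.varJ x v w) (r - s))
      (-(R t *ᵥ cpt g (g.geo x v) X (g.varJ x v w) (t - s))) t := fun t i => by
    have := (h.cpt1_deriv hE hv hJ (t - s) i).comp_sub_const t s
    rwa [hR, add_sub_cancel] at this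
  have y0 : cpt g (g.geo x v) X (g.varJ x v w) (s - s) = 0 := by
    funext i
    rw [sub_self, cpt, h0, map_zero]
    rfl
  have y1 : cpt1 g (g.geo x v) X (g.varJ x v w) (s - s) = z := by
    funext i
    have e1 : cmb (g.geo x v) X 0 (Pi.single i 1) 0 = X i 0 := by
      simp [cmb, Pi.single_apply]
    have e2 := h.ip_cmb 0 z (Pi.single i 1) a 0
    rw [e1] at e2
    have e3 : g.cov (g.geo x v) (chartAt E (g.geo x v 0))
        (g.varJ x v w (chartAt E (g.geo x v 0))) 0 = w := by
      rw [Metric.cov, h0, h1]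
      simp [chr]
    rw [sub_self, cpt1, e3, e2]
    simp
  have y2 := hS.sol_pr d1 d2 y0 (s + c)
  rw [y1, add_sub_cancel_left] at y2
  have hg := hJ.gauss (g.geo_isGeodesic x v) h0 (chart_mem_atlas E (g.geo x v c)) (t := c)
    (mem_chart_source E _)
  have e4 : cmb (g.geo x v) X 0 0 1 = vel E (g.geo x v) 0 := by simp [cmb]
  have e5 := h.ip_cmb 0 z 0 a 1
  rw [e4] at e5
  rw [h1, e5] at hg
  have hp := (ip_pos g x v hv).ne'
  rw [form_hb_dexp, h.expand hE hv c (g.varJ x v w (chartAt E (g.geo x v c)) c), ← y2]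
  have e6 : g.ip (g.geo x v c) (g.varJ x v w (chartAt E (g.geo x v c)) c) (vel E (g.geo x v) c) /
      g.ip x v v = c * a := by
    rw [div_eq_iff hp]
    refine hg.trans ?_
    simp only [dotProduct_zero]
    ring
  rw [e6]
  rfl

theorem Fr.dexp_cmb (h : Fr g (g.geo x v) X) (hE : Module.finrank ℝ E = m + 1) (hv : v ≠ 0)
    (hS : Sys (rmat g (g.geo x v) X) C S C1 S1) (s c : ℝ) (z : Fin m → ℝ) (a : ℝ) :
    g.exp (g.geo x v s) (c • vel E (g.geo x v) s) = g.geo x v (s + c) ∧
    dexp g (g.geo x v s) (c • vel E (g.geo x v) s) (c • cmb (g.geo x v) X s z a) =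
      cmb (g.geo x v) X (s + c) (pr C S (s + c) s *ᵥ z) (c * a) := by
  have hγ : g.geo (g.geo x v s) (vel E (g.geo x v) s) = fun r => g.geo x v (s + r) :=
    funext (g.geo_add x v s)
  refine ⟨by rw [g.exp_smul, hγ], ?_⟩
  have hv' : vel E (g.geo x v) s ≠ 0 := fun h0 => by
    have h1 := g.geo_speed x v s
    rw [h0, map_zero] at h1
    exact (ip_pos g x v hv).ne h1
  have h' : Fr g (g.geo (g.geo x v s) (vel E (g.geo x v) s)) fun i r => X i (s + r) := by
    rw [hγ]
    exact form_hb_fr h s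
  have h2 := form_hb_core h' hE hv' hS (s := s) (fun t => by
    rw [hγ]
    simp only [rmat, rop, form_hb_vel]) c z a
  rw [hγ] at h2
  simpa only [cmb, form_hb_vel, add_zero] using h2

end Vale.Agent.P231
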