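import Vale.Agent.P231.G.JacB

/-!
# The Jacobian of the exponential map  (TASK)

`gram_ratio`: for two bases the Gram matrices of a bilinear form are congruent by the change of basis matrix (`Basis.toMatrix`, `LinearMap.BilinForm.toMatrix_mul_basis_toMatrix`), whose
determinant is nonzero, so the ratio of two Gram determinants does not depend on the basis (also for a different index type of the same cardinality: `Basis.reindex`, `det_submatrix_equiv_self`).
`jac_eq`: use the basis `Option (Fin m) → E`, `some i ↦ c • X i s`, `none ↦ c • vel s` (orthogonal, nonzero; `basisOfLinearIndependentOfCardEqFinrank`), `dexp_cmb`, `Fr.ip_cmb`: the Gram matrices are block diagonal,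
`diag (Aᵀ A, c² |v|²)` and `diag (c², c² |v|²)`.
`jac_flip`: `v = 0` is trivial (`exp_zero`, the geodesic is constant); otherwise `jac_eq` with `(s, c) = (0, 1)` and `(1, -1)`, `abs_det_swap`.
`jac_pos`: the Gram matrix of linearly independent vectors is positive definite; `inj_nc`.  `tcont_jac`: read both ends in fixed charts `e, e'` (`lip_bE`, `ip_eq`, `gram_ratio` for the basis `trI e x (b i)`),
`contDiffAt_bE`, `TC.chart`, `TC.exp`; compare `P234.lip_tendsto`.  This file holds one portion of the plan above.  Prefix helper names by `jac_hc_`.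
-/

namespace Vale.Agent.P231

open scoped ContDiff Manifold ENNReal Topology
open Vale.Agent.P255 Vale.Agent.P234 Set Filter Real Matrix

variable {E M : Type*} [NormedAddCommGroup E] [NormedSpace ℝ E] [FiniteDimensional ℝ E]
  [TopologicalSpace M] [ChartedSpace E M] [IsManifold 𝓘(ℝ, E) ∞ M] [T2Space M] [CompactSpace M]
  [ConnectedSpace M]
  {g : Metric E M} {m : ℕ} {x : M} {v : E} {X : Fin m → ℝ → E} {C S C1 S1 : ℝ → Mat m} {D : ℝ}

theorem jac_hc_chart (g : Metric E M) {e e' : OpenPartialHomeomorph M E} (he : e ∈ atlas E M)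
    (he' : e' ∈ atlas E M) {x : M} (hx : x ∈ e.source) {u : E} (hy : g.exp x u ∈ e'.source) :
    jac g x u = √((Matrix.of fun i j => g.g e' (bE g e e' (e x, tr e x u))
        (fderiv ℝ (bE g e e') (e x, tr e x u) (0, Module.finBasis ℝ E i))
        (fderiv ℝ (bE g e e') (e x, tr e x u) (0, Module.finBasis ℝ E j))).det /
      (Matrix.of fun i j => g.g e (e x) (Module.finBasis ℝ E i) (Module.finBasis ℝ E j)).det) := by
  let φ : E ≃ₗ[ℝ] E := LinearEquiv.ofLinearMap (trI e x : E →ₗ[ℝ] E) (tr e x : E →ₗ[ℝ] E)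
    (LinearMap.ext fun w => trI_tr he hx w) (LinearMap.ext fun w => tr_trI he hx w)
  have hb : ∀ i, (Module.finBasis ℝ E).map φ i = trI e x (Module.finBasis ℝ E i) := fun _ => rfl
  rw [jac_basis g x u ((Module.finBasis ℝ E).map φ)]
  simp only [hb, dexp, ip_eq g he' hy, ip_eq g he hx, lip_tr g he' hy, lip_bE g he he' hx hy,
    tr_trI he hx, bE, expE_tr g he hx]

theorem jac_hc_det {ι n : Type*} [Fintype n] [DecidableEq n] {l : Filter ι} {f : ι → n → n → ℝ}
    {f₀ : n → n → ℝ} (h : ∀ i j, Tendsto (fun p => f p i j) l (𝓝 (f₀ i j))) :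
    Tendsto (fun p => (Matrix.of (f p)).det) l (𝓝 (Matrix.of f₀).det) := by
  have h1 : Tendsto (fun p => Matrix.of (f p)) l (𝓝 (Matrix.of f₀)) :=
    tendsto_pi_nhds.2 fun i => tendsto_pi_nhds.2 fun j => h i j
  exact (continuous_id.matrix_det.tendsto _).comp h1

theorem tcont_jac (g : Metric E M) : TCont (jac g) := by
  intro x₀ u₀ l hu
  set e := chartAt E x₀ with hed
  set e' := chartAt E (g.exp x₀ u₀) with hed'
  have he : e ∈ atlas E M := chart_mem_atlas E _
  have he' : e' ∈ atlas E M := chart_mem_atlas E _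
  have hx : x₀ ∈ e.source := mem_chart_source E _
  have hy : g.exp x₀ u₀ ∈ e'.source := mem_chart_source E _
  have hs : expE g e (e x₀) (tr e x₀ u₀) ∈ e'.source := by rwa [expE_tr g he hx]
  have hb := contDiffAt_bE g (q := (e x₀, tr e x₀ u₀)) 1 he he' (e.map_source hx) hs
  have h0 : Tendsto (fun p : M × E => e p.1) l (𝓝 (e x₀)) := (e.continuousAt hx).tendsto.comp hu.1
  have hq : Tendsto (fun p : M × E => (e p.1, tr e p.1 p.2)) l (𝓝 (e x₀, tr e x₀ u₀)) :=
    h0.prodMk_nhds (hu.chart he hx)
  have hD : Tendsto (fun p : M × E => fderiv ℝ (bE g e e') (e p.1, tr e p.1 p.2)) l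
      (𝓝 (fderiv ℝ (bE g e e') (e x₀, tr e x₀ u₀))) :=
    (hb.continuousAt_fderiv (by simp)).tendsto.comp hq
  have hG : Tendsto (fun p : M × E => g.g e' (bE g e e' (e p.1, tr e p.1 p.2))) l
      (𝓝 (g.g e' (bE g e e' (e x₀, tr e x₀ u₀)))) :=
    (((g.loc he').loc_contDiffAt (e'.map_source hs)).continuousAt.tendsto).comp
      (hb.continuousAt.tendsto.comp hq)
  have hG0 : Tendsto (fun p : M × E => g.g e (e p.1)) l (𝓝 (g.g e (e x₀))) :=
    (((g.loc he).loc_contDiffAt (e.map_source hx)).continuousAt.tendsto).comp h0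
  have h1 := jac_hc_det fun i j => basic_app
    (basic_app hG (basic_app hD (tendsto_const_nhds (x := ((0 : E), Module.finBasis ℝ E i)))))
    (basic_app hD (tendsto_const_nhds (x := ((0 : E), Module.finBasis ℝ E j))))
  have h2 := jac_hc_det fun i j => basic_app
    (basic_app hG0 (tendsto_const_nhds (x := Module.finBasis ℝ E i)))
    (tendsto_const_nhds (x := Module.finBasis ℝ E j))
  have h3 := (h1.div h2 (gram_pos g x₀ (Module.finBasis ℝ E).linearIndependent).ne').sqrt
  rw [jac_hc_chart g he he' hx hy]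
  refine h3.congr' ?_
  filter_upwards [hu.1.eventually (e.open_source.mem_nhds hx),
    (hu.exp g).eventually (e'.open_source.mem_nhds hy)] with p hp hp'
  rw [jac_hc_chart g he he' hp hp']
  rfl

end Vale.Agent.P231
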