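import Vale.Agent.P231.G.Form

/-!
# The Jacobian of the exponential map  (TASK)

`gram_ratio`: for two bases the Gram matrices of a bilinear form are congruent by the change of basis matrix (`Basis.toMatrix`, `LinearMap.BilinForm.toMatrix_mul_basis_toMatrix`), whose
determinant is nonzero, so the ratio of two Gram determinants does not depend on the basis (also for a different index type of the same cardinality: `Basis.reindex`, `det_submatrix_equiv_self`).
`jac_eq`: use the basis `Option (Fin m) → E`, `some i ↦ c • X i s`, `none ↦ c • vel s` (orthogonal, nonzero; `basisOfLinearIndependentOfCardEqFinrank`), `dexp_cmb`, `Fr.ip_cmb`: the Gram matrices are block diagonal,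
`diag (Aᵀ A, c² |v|²)` and `diag (c², c² |v|²)`.
`jac_flip`: `v = 0` is trivial (`exp_zero`, the geodesic is constant); otherwise `jac_eq` with `(s, c) = (0, 1)` and `(1, -1)`, `abs_det_swap`.
`jac_pos`: the Gram matrix of linearly independent vectors is positive definite; `inj_nc`.  `tcont_jac`: read both ends in fixed charts `e, e'` (`lip_bE`, `ip_eq`, `gram_ratio` for the basis `trI e x (b i)`),
`contDiffAt_bE`, `TC.chart`, `TC.exp`; compare `P234.lip_tendsto`.  This file holds one portion of the plan above.  Prefix helper names by `jac_ha_`.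
-/

namespace Vale.Agent.P231

open scoped ContDiff Manifold ENNReal Topology
open Vale.Agent.P255 Vale.Agent.P234 Set Filter Real Matrix

variable {E M : Type*} [NormedAddCommGroup E] [NormedSpace ℝ E] [FiniteDimensional ℝ E]
  [TopologicalSpace M] [ChartedSpace E M] [IsManifold 𝓘(ℝ, E) ∞ M] [T2Space M] [CompactSpace M]
  [ConnectedSpace M]
  {g : Metric E M} {m : ℕ} {x : M} {v : E} {X : Fin m → ℝ → E} {C S C1 S1 : ℝ → Mat m} {D : ℝ}

theorem jac_ha_det {ι : Type*} [Fintype ι] [DecidableEq ι] (b c : Module.Basis ι ℝ E)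
    (B : LinearMap.BilinForm ℝ E) :
    (Matrix.of fun i j => B (c i) (c j)).det =
      (b.toMatrix c).det ^ 2 * (Matrix.of fun i j => B (b i) (b j)).det := by
  have h1 : ∀ d : Module.Basis ι ℝ E,
      (Matrix.of fun i j => B (d i) (d j)) = LinearMap.BilinForm.toMatrix d B := by
    intro d
    ext i j
    simp [LinearMap.BilinForm.toMatrix_apply]
  rw [h1 c, h1 b, ← LinearMap.BilinForm.toMatrix_mul_basis_toMatrix b c B, Matrix.det_mul,
    Matrix.det_mul, Matrix.det_transpose]
  ring

theorem jac_ha_ratio {ι κ : Type*} [Fintype ι] [DecidableEq ι] [Fintype κ] [DecidableEq κ]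
    (b : Module.Basis ι ℝ E) (c : Module.Basis κ ℝ E) (A B : LinearMap.BilinForm ℝ E) :
    (Matrix.of fun i j => A (c i) (c j)).det / (Matrix.of fun i j => B (c i) (c j)).det =
      (Matrix.of fun i j => A (b i) (b j)).det / (Matrix.of fun i j => B (b i) (b j)).det := by
  let e : κ ≃ ι := c.indexEquiv b
  have h1 : ∀ F : LinearMap.BilinForm ℝ E, (Matrix.of fun i j => F (c i) (c j)).det =
      (Matrix.of fun i j => F (c.reindex e i) (c.reindex e j)).det := by
    intro F
    rw [← Matrix.det_submatrix_equiv_self e.symm]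
    congr 1
    ext i j
    simp
  have hP : (b.toMatrix (c.reindex e)).det ≠ 0 := by
    have := (b.invertibleToMatrix (c.reindex e))
    exact (Matrix.isUnit_det_of_invertible _).ne_zero
  rw [h1 A, h1 B, jac_ha_det b (c.reindex e) A, jac_ha_det b (c.reindex e) B,
    mul_div_mul_left _ _ (pow_ne_zero 2 hP)]

/-- The bilinear form `(u, w) ↦ B (L u) (L w)`. -/
noncomputable def jac_ha_form (B : E →L[ℝ] E →L[ℝ] ℝ) (L : E →L[ℝ] E) : LinearMap.BilinForm ℝ E :=
  LinearMap.mk₂ ℝ (fun u w => B (L u) (L w)) (by intros; simp) (by intros; simp) (by intros; simp)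
    (by intros; simp)

theorem jac_basis (g : Metric E M) (x : M) (v : E) {ι : Type*} [Fintype ι] [DecidableEq ι]
    (b : Module.Basis ι ℝ E) : jac g x v =
      √((Matrix.of fun i j => g.ip (g.exp x v) (dexp g x v (b i)) (dexp g x v (b j))).det /
        (Matrix.of fun i j => g.ip x (b i) (b j)).det) := by
  have h := jac_ha_ratio b (Module.finBasis ℝ E) (jac_ha_form (g.ip (g.exp x v)) (dexp g x v))
    (jac_ha_form (g.ip x) (ContinuousLinearMap.id ℝ E))
  unfold jac
  exact congrArg Real.sqrt h

theorem gram_pos (g : Metric E M) (x : M) {ι : Type*} [Fintype ι] [DecidableEq ι] {b : ι → E}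
    (hb : LinearIndependent ℝ b) : 0 < (Matrix.of fun i j => g.ip x (b i) (b j)).det := by
  refine Matrix.PosDef.det_pos (Matrix.PosDef.of_dotProduct_mulVec_pos ?_ ?_)
  · ext i j
    simp [ip_symm g x (b j) (b i)]
  · intro w hw
    have h1 : star w ⬝ᵥ (Matrix.of fun i j => g.ip x (b i) (b j)) *ᵥ w =
        g.ip x (∑ i, w i • b i) (∑ i, w i • b i) := by
      simp only [star_trivial, dotProduct, mulVec, Matrix.of_apply, map_sum, map_smul,
        ContinuousLinearMap.sum_apply, ContinuousLinearMap.smul_apply, smul_eq_mul,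
        Finset.mul_sum]
      rw [Finset.sum_comm]
      refine Finset.sum_congr rfl fun i _ => Finset.sum_congr rfl fun j _ => ?_
      ring
    rw [h1]
    refine ip_pos g x _ fun h0 => hw ?_
    funext i
    exact Fintype.linearIndependent_iff.1 hb w h0 i

theorem jac_nonneg (g : Metric E M) (x : M) (v : E) : 0 ≤ jac g x v := Real.sqrt_nonneg _

end Vale.Agent.P231
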