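import Vale.Agent.P231.G.JacA

/-!
# The Jacobian of the exponential map  (TASK)

`gram_ratio`: for two bases the Gram matrices of a bilinear form are congruent by the change of basis matrix (`Basis.toMatrix`, `LinearMap.BilinForm.toMatrix_mul_basis_toMatrix`), whose
determinant is nonzero, so the ratio of two Gram determinants does not depend on the basis (also for a different index type of the same cardinality: `Basis.reindex`, `det_submatrix_equiv_self`).
`jac_eq`: use the basis `Option (Fin m) → E`, `some i ↦ c • X i s`, `none ↦ c • vel s` (orthogonal, nonzero; `basisOfLinearIndependentOfCardEqFinrank`), `dexp_cmb`, `Fr.ip_cmb`: the Gram matrices are block diagonal,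
`diag (Aᵀ A, c² |v|²)` and `diag (c², c² |v|²)`.
`jac_flip`: `v = 0` is trivial (`exp_zero`, the geodesic is constant); otherwise `jac_eq` with `(s, c) = (0, 1)` and `(1, -1)`, `abs_det_swap`.
`jac_pos`: the Gram matrix of linearly independent vectors is positive definite; `inj_nc`.  `tcont_jac`: read both ends in fixed charts `e, e'` (`lip_bE`, `ip_eq`, `gram_ratio` for the basis `trI e x (b i)`),
`contDiffAt_bE`, `TC.chart`, `TC.exp`; compare `P234.lip_tendsto`.  This file holds one portion of the plan above.  Prefix helper names by `jac_hb_`.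
-/

namespace Vale.Agent.P231

open scoped ContDiff Manifold ENNReal Topology
open Vale.Agent.P255 Vale.Agent.P234 Set Filter Real Matrix

variable {E M : Type*} [NormedAddCommGroup E] [NormedSpace ℝ E] [FiniteDimensional ℝ E]
  [TopologicalSpace M] [ChartedSpace E M] [IsManifold 𝓘(ℝ, E) ∞ M] [T2Space M] [CompactSpace M]
  [ConnectedSpace M]
  {g : Metric E M} {m : ℕ} {x : M} {v : E} {X : Fin m → ℝ → E} {C S C1 S1 : ℝ → Mat m} {D : ℝ}

theorem Fr.jac_eq (h : Fr g (g.geo x v) X) (hE : Module.finrank ℝ E = m + 1) (hv : v ≠ 0)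
    (hS : Sys (rmat g (g.geo x v) X) C S C1 S1) (s : ℝ) {c : ℝ} (hc : c ≠ 0) :
    jac g (g.geo x v s) (c • vel E (g.geo x v) s) = |(pr C S (s + c) s).det| / |c| ^ m := by
  have hq : 0 < g.ip x v v := ip_pos g x v hv
  obtain ⟨z, hz⟩ : ∃ z : Fin m ⊕ Unit → Fin m → ℝ, z = Sum.elim (fun i => Pi.single i 1) 0 :=
    ⟨_, rfl⟩
  obtain ⟨a, ha⟩ : ∃ a : Fin m ⊕ Unit → ℝ, a = Sum.elim (fun _ => 0) fun _ => 1 :=
    ⟨_, rfl⟩
  have key : ∀ (A : Mat m) (t : ℝ), (Matrix.of fun i j => g.ip (g.geo x v t)
      (cmb (g.geo x v) X t (A *ᵥ z i) (c * a i)) (cmb (g.geo x v) X t (A *ᵥ z j) (c * a j))).det =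
      A.det ^ 2 * (c ^ 2 * g.ip x v v) := fun A t => by
    have e : (Matrix.of fun i j => g.ip (g.geo x v t) (cmb (g.geo x v) X t (A *ᵥ z i) (c * a i))
        (cmb (g.geo x v) X t (A *ᵥ z j) (c * a j))) =
        fromBlocks (Aᵀ * A) 0 0 (Matrix.of fun _ _ : Unit => c ^ 2 * g.ip x v v) := by
      ext (i | i) (j | j) <;> simp [h.ip_cmb, hz, ha, Matrix.mul_apply, dotProduct, sq]
    rw [e, det_fromBlocks_zero₂₁, det_mul, det_transpose, det_unique (n := Unit), sq A.det,
      of_apply]
  have e1 : ∀ i, c • cmb (g.geo x v) X s (z i) (a i) =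
      cmb (g.geo x v) X s ((c • (1 : Mat m)) *ᵥ z i) (c * a i) := fun i => by
    simp [cmb, smul_mulVec, Finset.smul_sum, smul_smul]
  have h2 := key (c • 1) s
  simp only [← e1] at h2
  rw [det_smul, det_one, mul_one, Fintype.card_fin] at h2
  have hli : LinearIndependent ℝ fun i => c • cmb (g.geo x v) X s (z i) (a i) := by
    refine Fintype.linearIndependent_iff.2 fun w hw => congrFun
      (eq_zero_of_vecMul_eq_zero (h2.trans_ne (by positivity)) (funext fun j => ?_))
    have h3 := congrArg (fun u => g.ip (g.geo x v s) u (c • cmb (g.geo x v) X s (z j) (a j))) hw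
    simp only [map_sum, map_smul (g.ip _) (w _), _root_.sum_apply, _root_.smul_apply,
      map_zero] at h3
    exact h3
  rw [jac_basis g _ _ (basisOfLinearIndependentOfCardEqFinrank hli (by simp [hE])),
    coe_basisOfLinearIndependentOfCardEqFinrank]
  simp only [fun z a => (h.dexp_cmb hE hv hS s c z a).2]
  rw [(h.dexp_cmb hE hv hS s c 0 0).1, key, h2, mul_div_mul_right _ _ (by positivity), ← div_pow,
    Real.sqrt_sq_eq_abs, abs_div, abs_pow]

theorem jac_flip (g : Metric E M) (hE : Module.finrank ℝ E = m + 1) (x : M) (v : E) :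
    jac g (g.exp x v) (-vel E (g.geo x v) 1) = jac g x v := by
  by_cases hv : v = 0
  · subst hv
    have h1 := vel_geo_smul g x 0 0 1
    rw [zero_smul, zero_smul] at h1
    rw [h1, neg_zero, g.exp_zero]
  obtain ⟨X, h⟩ := exists_frame g hE x hv
  obtain ⟨C, S, C1, S1, hS⟩ := h.exists_sys hE hv
  have h1 := h.jac_eq hE hv hS 0 one_ne_zero
  have h2 := h.jac_eq hE hv hS 1 (neg_ne_zero.2 one_ne_zero)
  rw [g.geo_zero, vel_geo_zero, one_smul, zero_add] at h1
  rw [neg_one_smul, add_neg_cancel, abs_neg, abs_det_swap, ← h1] at h2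
  exact h2

theorem Bl.jac_pos (h : Bl g D) (hv : nrm g x v < D) : 0 < jac g x v := by
  have hb := (Module.finBasis ℝ E).linearIndependent
  exact Real.sqrt_pos.2 (div_pos (gram_pos g _ (hb.map' (dexp g x v : E →ₗ[ℝ] E)
    (LinearMap.ker_eq_bot'.2 (inj_nc (h.inj hv))))) (gram_pos g x hb))

end Vale.Agent.P231
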