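import Vale.Agent.P231.G.ParB

/-!
# Parallel fields and frames along a geodesic  (TASK)

`isPar_of_local`: the equation in one chart gives it in every chart: `tr e' = fderiv (e' ∘ e.symm) ∘ tr e` (`tr_tr`) near `t`, product rule and `chr_transform`
(`compat_eventually`, `tr_contDiffAt`, `hasDerivAt_chart`), as in `P255.geodesic_transform`.
`exists_par`: local existence for all initial values on a uniform interval: near `t₀`, in the chart `e = chartAt (γ t₀)`, solve the linear equation
`Y' = -(chrL G (e γ t) (γ' t)) ∘ Y`, `Y t₁ = id`, for every `t₁` near `t₀` on the same small interval.  Either Picard-Lindelof (`IsPicardLindelof`, time dependent, Lipschitz constant a bound for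
the operator norm), or `exists_flow` / `exists_flowN` for the autonomous field `(x, v, Y) ↦ (v, -chr x v v, -chrL x v ∘ Y)` near `(e (γ t₀), γ' t₀, id)` and `IsGeodesic` uniqueness.
Uniqueness on intervals: the difference `Z` of two parallel fields has `ip Z Z` constant.  Glue: the set of `t` such that a parallel field on an open interval containing `0, t` with
value `w` at `0` exists is open and closed (`IsClopen.eq_univ`, or the `local_dep` pattern of `P255/Dep`), then define `X t` by choice.
`IsPar.ip_const`: `LocMetric.hasDerivAt_inner`, `ip_eq`, `is_const_of_deriv_eq_zero`.  `isPar_vel`: `hasDerivAt_geo`, `hasDerivAt_st_dep`.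
`exists_frame`: an `ip`-orthonormal basis of the orthogonal complement of `v` (build an `InnerProductSpace.Core` on a type synonym, or conjugate by a square root: `LinearMap.BilinForm.exists_orthogonal_basis`
for the restriction of the form to `ker (ip x v)`, of dimension `m`, then normalise); extend by `exists_par`.
`Fr.expand`: the `m + 1` pairwise orthogonal nonzero vectors are linearly independent, hence span (`basisOfLinearIndependentOfCardEqFinrank`).  This file holds one portion of the plan above.  Prefix helper names by `par_hc_`.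
-/

namespace Vale.Agent.P231

open scoped ContDiff Manifold ENNReal Topology
open Vale.Agent.P255 Vale.Agent.P234 Set Filter Real

variable {E M : Type*} [NormedAddCommGroup E] [NormedSpace ℝ E] [FiniteDimensional ℝ E]
  [TopologicalSpace M] [ChartedSpace E M] [IsManifold 𝓘(ℝ, E) ∞ M] [T2Space M] [CompactSpace M]
  {g : Metric E M} {m : ℕ} {x : M} {v : E}

theorem par_hc_on (g : Metric E M) (hE : Module.finrank ℝ E = m + 1) (x : M) {v : E}
    (hv : v ≠ 0) : ∃ b : Fin m → E, (∀ i j, g.ip x (b i) (b j) = if i = j then 1 else 0) ∧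
      ∀ i, g.ip x (b i) v = 0 := by
  let f : Module.Dual ℝ E := (g.ip x v : E →ₗ[ℝ] ℝ)
  have hf : f ≠ 0 := fun h => (ip_pos g x v hv).ne' (LinearMap.congr_fun h v)
  have hk : Module.finrank ℝ (LinearMap.ker f) = m := by
    have := Module.Dual.finrank_ker_add_one_of_ne_zero hf
    omega
  let B : LinearMap.BilinForm ℝ (LinearMap.ker f) :=
    LinearMap.mk₂ ℝ (fun a b => g.ip x a b) (by simp) (by simp) (by simp) (by simp)
  have hB : LinearMap.IsSymm B := ⟨fun a b => ip_symm g x _ _⟩
  obtain ⟨c, hc⟩ := LinearMap.BilinForm.exists_orthogonal_basis hB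
  have hpos : ∀ i, 0 < g.ip x (c i) (c i) := fun i =>
    ip_pos g x _ fun h => c.ne_zero i (Subtype.ext h)
  refine ⟨fun i => (√(g.ip x (c (Fin.cast hk.symm i)) (c (Fin.cast hk.symm i))))⁻¹ •
    (c (Fin.cast hk.symm i) : E), fun i j => ?_, fun i => ?_⟩
  · simp only [map_smul, smul_apply, smul_eq_mul]
    split_ifs with h
    · subst h
      have h1 := hpos (Fin.cast hk.symm i)
      have h2 := Real.mul_self_sqrt h1.le
      have h3 := (Real.sqrt_pos.2 h1).ne'
      field_simp
      linarith
    · have h1 : g.ip x (c (Fin.cast hk.symm i)) (c (Fin.cast hk.symm j)) = 0 :=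
        hc fun h' => h (Fin.cast_injective _ h')
      rw [h1, mul_zero, mul_zero]
  · have h1 : g.ip x v (c (Fin.cast hk.symm i)) = 0 := (c (Fin.cast hk.symm i)).2
    rw [ip_symm, map_smul, h1, smul_zero]

theorem exists_frame (g : Metric E M) (hE : Module.finrank ℝ E = m + 1) (x : M) {v : E}
    (hv : v ≠ 0) : ∃ X : Fin m → ℝ → E, Fr g (g.geo x v) X := by
  obtain ⟨b, h1, h2⟩ := par_hc_on g hE x hv
  choose X hX hX0 using fun i => exists_par g x v (b i)
  refine ⟨X, hX, fun t i j => ?_, fun t i => ?_⟩
  · rw [(hX i).ip_const (hX j) t 0, hX0, hX0, g.geo_zero, h1]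
  · rw [(hX i).ip_const (isPar_vel g x v) t 0, hX0, vel_geo_zero, g.geo_zero, h2]

theorem Fr.ip_cmb {X : Fin m → ℝ → E} (h : Fr g (g.geo x v) X) (t : ℝ) (z z' : Fin m → ℝ)
    (a a' : ℝ) : g.ip (g.geo x v t) (cmb (g.geo x v) X t z a) (cmb (g.geo x v) X t z' a') =
      z ⬝ᵥ z' + a * a' * g.ip x v v := by
  have h1 : ∀ i, g.ip (g.geo x v t) (vel E (g.geo x v) t) (X i t) = 0 := fun i => by
    rw [ip_symm, h.nor]
  simp only [cmb, map_add, map_sum, map_smul, add_apply, sum_apply, smul_apply, smul_eq_mul, h.on,
    h.nor, h1, g.geo_speed, mul_ite, mul_one, mul_zero, Finset.sum_const_zero, add_zero, zero_add,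
    Finset.sum_ite_eq', Finset.mem_univ, if_true, dotProduct]
  rw [Finset.sum_congr rfl fun i _ => mul_comm (z' i) (z i)]
  ring

theorem Fr.expand {X : Fin m → ℝ → E} (h : Fr g (g.geo x v) X) (hE : Module.finrank ℝ E = m + 1)
    (hv : v ≠ 0) (t : ℝ) (w : E) : w = cmb (g.geo x v) X t (fun i => g.ip (g.geo x v t) w (X i t))
      (g.ip (g.geo x v t) w (vel E (g.geo x v) t) / g.ip x v v) := by
  have hp := ip_pos g x v hv
  let L : ((Fin m → ℝ) × ℝ) →ₗ[ℝ] E :=
    { toFun := fun p => cmb (g.geo x v) X t p.1 p.2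
      map_add' := fun p q => by
        simp only [cmb, Prod.fst_add, Prod.snd_add, Pi.add_apply, add_smul, Finset.sum_add_distrib]
        abel
      map_smul' := fun c p => by
        simp only [cmb, Prod.smul_fst, Prod.smul_snd, Pi.smul_apply, smul_eq_mul, mul_smul,
          RingHom.id_apply, smul_add, Finset.smul_sum] }
  have hinj : Function.Injective L := by
    rw [injective_iff_map_eq_zero]
    intro p hp0
    have h1 := h.ip_cmb t p.1 p.1 p.2 p.2
    have h2 : cmb (g.geo x v) X t p.1 p.2 = 0 := hp0
    rw [h2, map_zero] at h1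
    have h3 : 0 ≤ p.1 ⬝ᵥ p.1 := Finset.sum_nonneg fun i _ => mul_self_nonneg _
    have h4 : 0 ≤ p.2 * p.2 * g.ip x v v := mul_nonneg (mul_self_nonneg _) hp.le
    refine Prod.ext (dotProduct_self_eq_zero.1 (by linarith)) ?_
    have h5 : p.2 * p.2 * g.ip x v v = 0 := by linarith
    exact mul_self_eq_zero.1 ((mul_eq_zero.1 h5).resolve_right hp.ne')
  have hsurj : Function.Surjective L :=
    (LinearMap.injective_iff_surjective_of_finrank_eq_finrank (by simp [hE])).1 hinj
  obtain ⟨p, rfl⟩ := hsurj w
  change cmb (g.geo x v) X t p.1 p.2 = cmb (g.geo x v) X t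
    (fun i => g.ip (g.geo x v t) (cmb (g.geo x v) X t p.1 p.2) (X i t))
    (g.ip (g.geo x v t) (cmb (g.geo x v) X t p.1 p.2) (vel E (g.geo x v) t) / g.ip x v v)
  have e1 : ∀ i, X i t = cmb (g.geo x v) X t (Pi.single i 1) 0 := fun i => by
    simp [cmb, Pi.single_apply]
  have e2 : vel E (g.geo x v) t = cmb (g.geo x v) X t 0 1 := by simp [cmb]
  congr 1
  · funext i
    rw [e1 i, h.ip_cmb]
    simp
  · conv_rhs => rw [e2, h.ip_cmb]
    field_simp
    simp

theorem IsPar.shift {X : ℝ → E} {T : ℝ} (hX : IsPar g (g.geo x v) X)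
    (hT : ∀ t, g.geo x v (t + T) = g.geo x v t) : IsPar g (g.geo x v) fun t => X (t + T) := by
  intro e he t ht
  have h1 := (hX e he (t + T) (by rw [hT]; exact ht)).comp_add_const t T
  have h2 : deriv (e ∘ g.geo x v) (t + T) = deriv (e ∘ g.geo x v) t := by
    rw [← deriv_comp_add_const]
    congr 1
    funext s
    simp only [Function.comp_apply, hT]
  simpa only [hT, h2] using h1

end Vale.Agent.P231
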