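import Vale.Agent.P231.G.Defs

/-!
# Parallel fields and frames along a geodesic  (TASK)

`isPar_of_local`: the equation in one chart gives it in every chart: `tr e' = fderiv (e' ∘ e.symm) ∘ tr e` (`tr_tr`) near `t`, product rule and `chr_transform`
(`compat_eventually`, `tr_contDiffAt`, `hasDerivAt_chart`), as in `P255.geodesic_transform`.
`exists_par`: local existence for all initial values on a uniform interval: near `t₀`, in the chart `e = chartAt (γ t₀)`, solve the linear equation
`Y' = -(chrL G (e γ t) (γ' t)) ∘ Y`, `Y t₁ = id`, for every `t₁` near `t₀` on the same small interval.  Either Picard-Lindelof (`IsPicardLindelof`, time dependent, Lipschitz constant a bound for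
the operator norm), or `exists_flow` / `exists_flowN` for the autonomous field `(x, v, Y) ↦ (v, -chr x v v, -chrL x v ∘ Y)` near `(e (γ t₀), γ' t₀, id)` and `IsGeodesic` uniqueness.
Uniqueness on intervals: the difference `Z` of two parallel fields has `ip Z Z` constant.  Glue: the set of `t` such that a parallel field on an open interval containing `0, t` with
value `w` at `0` exists is open and closed (`IsClopen.eq_univ`, or the `local_dep` pattern of `P255/Dep`), then define `X t` by choice.
`IsPar.ip_const`: `LocMetric.hasDerivAt_inner`, `ip_eq`, `is_const_of_deriv_eq_zero`.  `isPar_vel`: `hasDerivAt_geo`, `hasDerivAt_st_dep`.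
`exists_frame`: an `ip`-orthonormal basis of the orthogonal complement of `v` (build an `InnerProductSpace.Core` on a type synonym, or conjugate by a square root: `LinearMap.BilinForm.exists_orthogonal_basis`
for the restriction of the form to `ker (ip x v)`, of dimension `m`, then normalise); extend by `exists_par`.
`Fr.expand`: the `m + 1` pairwise orthogonal nonzero vectors are linearly independent, hence span (`basisOfLinearIndependentOfCardEqFinrank`).  This file holds one portion of the plan above.  Prefix helper names by `par_ha_`.
-/

namespace Vale.Agent.P231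

open scoped ContDiff Manifold ENNReal Topology
open Vale.Agent.P255 Vale.Agent.P234 Set Filter Real

variable {E M : Type*} [NormedAddCommGroup E] [NormedSpace ℝ E] [FiniteDimensional ℝ E]
  [TopologicalSpace M] [ChartedSpace E M] [IsManifold 𝓘(ℝ, E) ∞ M] [T2Space M] [CompactSpace M]
  {g : Metric E M} {m : ℕ} {x : M} {v : E}

theorem IsPar.ip_const {X Y : ℝ → E} (hX : IsPar g (g.geo x v) X) (hY : IsPar g (g.geo x v) Y)
    (s t : ℝ) : g.ip (g.geo x v s) (X s) (Y s) = g.ip (g.geo x v t) (X t) (Y t) := by
  have key : ∀ s, HasDerivAt (fun r => g.ip (g.geo x v r) (X r) (Y r)) 0 s := by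
    intro s
    set e := chartAt E (g.geo x v s)
    have he : e ∈ atlas E M := chart_mem_atlas E _
    have hm : g.geo x v s ∈ e.source := mem_chart_source E _
    have h3 := (g.loc he).hasDerivAt_inner (x := e ∘ g.geo x v) (e.map_source hm)
      (g.hasDerivAt_st_dep x v he hm).1 (hX e he s hm) (hY e he s hm)
    simp only [Function.comp_apply, neg_add_cancel, map_zero, zero_apply, add_zero] at h3
    refine h3.congr_of_eventuallyEq ?_
    filter_upwards [(g.continuous_geo x v).continuousAt.preimage_mem_nhds
      (e.open_source.mem_nhds hm)] with r hr
    exact ip_eq g he hr _ _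
  exact is_const_of_deriv_eq_zero (fun s => (key s).differentiableAt) (fun s => (key s).deriv) s t

theorem isPar_vel (g : Metric E M) (x : M) (v : E) :
    IsPar g (g.geo x v) (vel E (g.geo x v)) := by
  intro e he t ht
  rw [← (hasDerivAt_geo g he x v ht).deriv]
  refine (g.hasDerivAt_st_dep x v he ht).2.congr_of_eventuallyEq ?_
  filter_upwards [(g.continuous_geo x v).continuousAt.preimage_mem_nhds
    (e.open_source.mem_nhds ht)] with r hr
  exact (hasDerivAt_geo g he x v hr).deriv.symm

end Vale.Agent.P231
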