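import Vale.Agent.P231.G.Bl

/-!
# From the infinitesimal symmetry to the geodesic reflection  (TASK)

`σ y = exp p (-lg p y)`.  `per_unit`: rescale (`geo_smul`, `exp_smul`); in particular `exp (-u) = exp u` for `nrm u = D`.  `refl_exp` for `nrm v ≤ D`: `lg_exp` if `< D`; if `= D` both sides equal `exp v` (`lg_spec`, `rdist_exp`).
For general `v = t • u` (`nrm u = 1`) reduce `t` modulo `2 D` to `[-D, D]` (`toIcoMod`, `Function.Periodic`).  `σ (σ y) = y` by `refl_exp`, `lg_spec`.  `σ` is continuous along curves where needed: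
`refl_seg`: `c = geo x u`, `rdist p (c t) < D` on `Icc a b`; put `φ r = a + (b - a) * smoothTransition r` (monotone, smooth), `η r = lg p (c (φ r))`; `η` is `C¹` (`contDiffAt_lg`, `c1_chart`), `exp ∘ η = c ∘ φ` and
`exp ∘ (-η)` are `C1` (`c1_of_charts`, `contDiffAt_exp`), with the same speed by `Sym` (chain rule), so `rdist ≤ length = ∫ spd (c ∘ φ) = (b - a) nrm u` (`rdist_le_length`, `int_reparam_curve`, `spd_geo`).
At a point `y` with `rdist p y = D`: `σ y = y` and `rdist (σ z) y ≤ rdist (σ z) z + rdist z y` with `rdist (σ z) z ≤ 2 (D - rdist p z)` (both lie on the closed geodesic, at distance `D - rdist p z` from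
`exp (D u) = exp (-D u)`; `rdist_geo_le`), so `σ` is continuous at such points in the sense of `rdist`.  `refl_lip`: minimising `c` from `x` to `y` (`hopf_rinow`), `Z = {t ∈ [0,1] | rdist p (c t) = D}` compact; if empty use `refl_seg`;
else `t₁ = min Z`, `t₂ = max Z`, use `refl_seg` on `[0, t₁ - ε]`, `[t₂ + ε, 1]`, let `ε → 0`, and `rdist_geo_le` between.  This file holds one portion of the plan above.  Prefix helper names by `sym_ha_`.
-/

namespace Vale.Agent.P231

open scoped ContDiff Manifold ENNReal Topology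
open Vale.Agent.P255 Vale.Agent.P234 Set Filter Real

variable {E M : Type*} [NormedAddCommGroup E] [NormedSpace ℝ E] [FiniteDimensional ℝ E]
  [TopologicalSpace M] [ChartedSpace E M] [IsManifold 𝓘(ℝ, E) ∞ M] [T2Space M] [CompactSpace M]
  [ConnectedSpace M] {g : Metric E M} {D : ℝ} {p : M}

/-- The geodesic reflection. -/
noncomputable def refl (g : Metric E M) (p y : M) : M := g.exp p (-lg g p y)

theorem per_unit (h : Bl g D) (hP : Per g D) {x : M} {v : E} (hv : nrm g x v = 1) (t : ℝ) :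
    g.exp x ((t + 2 * D) • v) = g.exp x (t • v) := by
  have hc : 0 < 2 * D / π := div_pos (by linarith [h.pos]) pi_pos
  have hn : nrm g x ((2 * D / π) • v) = 2 * D / π := by
    rw [nrm_smul, hv, mul_one, abs_of_pos hc]
  have e := hP x _ hn (t / (2 * D / π))
  rw [g.geo_smul, g.geo_smul, mul_add, mul_div_cancel₀ _ hc.ne', div_mul_cancel₀ _ pi_pos.ne'] at e
  rw [g.exp_smul, g.exp_smul, e]

theorem sym_ha_neg (h : Bl g D) (hP : Per g D) {x : M} {u : E} (hu : nrm g x u = D) :
    g.exp x (-u) = g.exp x u := by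
  have hD := h.pos
  have hv : nrm g x (D⁻¹ • u) = 1 := by
    rw [nrm_smul, hu, abs_of_pos (inv_pos.2 hD), inv_mul_cancel₀ hD.ne']
  have e := per_unit h hP hv (-D)
  rw [show -D + 2 * D = D by ring, neg_smul, smul_smul, mul_inv_cancel₀ hD.ne', one_smul] at e
  exact e.symm

theorem sym_ha_le (h : Bl g D) (hP : Per g D) {p : M} {v : E} (hv : nrm g p v ≤ D) :
    refl g p (g.exp p v) = g.exp p (-v) := by
  rcases hv.lt_or_eq with h1 | h1
  · rw [refl, h.lg_exp h1]
  · obtain ⟨e1, e2⟩ := lg_spec g p (g.exp p v)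
    rw [h.rdist_exp hv, h1] at e2
    rw [refl, sym_ha_neg h hP e2, e1, sym_ha_neg h hP h1]

theorem refl_exp (h : Bl g D) (hP : Per g D) (p : M) (v : E) :
    refl g p (g.exp p v) = g.exp p (-v) := by
  have hD := h.pos
  by_cases hv : nrm g p v ≤ D
  · exact sym_ha_le h hP hv
  have hn : 0 < nrm g p v := hD.trans (not_le.1 hv)
  obtain ⟨u, hu, n, rfl⟩ : ∃ u, nrm g p u = 1 ∧ ∃ n : ℝ, v = n • u := by
    refine ⟨(nrm g p v)⁻¹ • v, ?_, nrm g p v, ?_⟩
    · rw [nrm_smul, abs_of_pos (inv_pos.2 hn), inv_mul_cancel₀ hn.ne']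
    · rw [smul_smul, mul_inv_cancel₀ hn.ne', one_smul]
  have hF : Function.Periodic (fun t : ℝ => g.exp p (t • u)) (2 * D) := per_unit h hP hu
  have h2 : 0 < 2 * D := by linarith
  have hm := toIcoMod_mem_Ico h2 (-D) n
  have he := toIcoMod_add_toIcoDiv_zsmul h2 (-D) n
  set t := toIcoMod h2 (-D) n
  set k := toIcoDiv h2 (-D) n
  have e1 : g.exp p (n • u) = g.exp p (t • u) := by
    rw [← he]
    exact hF.zsmul k t
  have e2 : g.exp p (-(n • u)) = g.exp p (-(t • u)) := by
    rw [← he, ← neg_smul, ← neg_smul, neg_add, ← sub_eq_add_neg]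
    exact hF.sub_zsmul_eq k
  rw [e1, e2]
  refine sym_ha_le h hP ?_
  rw [nrm_smul, hu, mul_one, abs_le]
  exact ⟨hm.1, by linarith [hm.2]⟩

end Vale.Agent.P231
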