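import Vale.Agent.P231.G.SymA

/-!
# From the infinitesimal symmetry to the geodesic reflection  (TASK)

`σ y = exp p (-lg p y)`.  `per_unit`: rescale (`geo_smul`, `exp_smul`); in particular `exp (-u) = exp u` for `nrm u = D`.  `refl_exp` for `nrm v ≤ D`: `lg_exp` if `< D`; if `= D` both sides equal `exp v` (`lg_spec`, `rdist_exp`).
For general `v = t • u` (`nrm u = 1`) reduce `t` modulo `2 D` to `[-D, D]` (`toIcoMod`, `Function.Periodic`).  `σ (σ y) = y` by `refl_exp`, `lg_spec`.  `σ` is continuous along curves where needed: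
`refl_seg`: `c = geo x u`, `rdist p (c t) < D` on `Icc a b`; put `φ r = a + (b - a) * smoothTransition r` (monotone, smooth), `η r = lg p (c (φ r))`; `η` is `C¹` (`contDiffAt_lg`, `c1_chart`), `exp ∘ η = c ∘ φ` and
`exp ∘ (-η)` are `C1` (`c1_of_charts`, `contDiffAt_exp`), with the same speed by `Sym` (chain rule), so `rdist ≤ length = ∫ spd (c ∘ φ) = (b - a) nrm u` (`rdist_le_length`, `int_reparam_curve`, `spd_geo`).
At a point `y` with `rdist p y = D`: `σ y = y` and `rdist (σ z) y ≤ rdist (σ z) z + rdist z y` with `rdist (σ z) z ≤ 2 (D - rdist p z)` (both lie on the closed geodesic, at distance `D - rdist p z` from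
`exp (D u) = exp (-D u)`; `rdist_geo_le`), so `σ` is continuous at such points in the sense of `rdist`.  `refl_lip`: minimising `c` from `x` to `y` (`hopf_rinow`), `Z = {t ∈ [0,1] | rdist p (c t) = D}` compact; if empty use `refl_seg`;
else `t₁ = min Z`, `t₂ = max Z`, use `refl_seg` on `[0, t₁ - ε]`, `[t₂ + ε, 1]`, let `ε → 0`, and `rdist_geo_le` between.  This file holds one portion of the plan above.  Prefix helper names by `sym_hb_`.
-/

namespace Vale.Agent.P231

open scoped ContDiff Manifold ENNReal Topology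
open Vale.Agent.P255 Vale.Agent.P234 Set Filter Real

variable {E M : Type*} [NormedAddCommGroup E] [NormedSpace ℝ E] [FiniteDimensional ℝ E]
  [TopologicalSpace M] [ChartedSpace E M] [IsManifold 𝓘(ℝ, E) ∞ M] [T2Space M] [CompactSpace M]
  [ConnectedSpace M] {g : Metric E M} {D : ℝ} {p : M}

omit [ConnectedSpace M] in
theorem sym_hb_exp {η : ℝ → E} (hη : ContDiff ℝ 1 η) : C1 E (g.exp p ∘ η) ∧ ∀ t,
    spd g (g.exp p ∘ η) t = nrm g (g.exp p (η t)) (dexp g p (η t) (deriv η t)) := by
  have h1 := fun t => g.contDiffAt_exp p (η t) (chart_mem_atlas E _) (mem_chart_source E _)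
  refine ⟨c1_of_charts ((g.continuous_exp p).comp hη.continuous) fun t =>
    ⟨_, chart_mem_atlas E _, mem_chart_source E _, (h1 t).comp t hη.contDiffAt⟩, fun t => ?_⟩
  have h2 := ((h1 t).differentiableAt one_ne_zero).hasFDerivAt.comp_hasDerivAt t
    (hη.differentiable one_ne_zero t).hasDerivAt
  have h3 : vel E (g.exp p ∘ η) t = dexp g p (η t) (deriv η t) := h2.deriv
  rw [spd, h3]
  rfl

theorem sym_hb_len (h : Bl g D) (hS : Sym g D p) {γ : ℝ → M} (hγ : C1 E γ)
    (hd : ∀ t, rdist g p (γ t) < D) :
    rdist g (refl g p (γ 0)) (refl g p (γ 1)) ≤ length g γ := by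
  have hη : ContDiff ℝ 1 fun t => lg g p (γ t) := contDiff_iff_contDiffAt.2 fun t => by
    have he := chart_mem_atlas E (γ t)
    have ht := mem_chart_source E (γ t)
    refine ((h.contDiffAt_lg (hd t) he ht).comp t (c1_chart hγ he ht)).congr_of_eventuallyEq ?_
    filter_upwards [hγ.continuous.continuousAt.eventually
      ((chartAt E (γ t)).open_source.mem_nhds ht)] with r hr
    simp only [Function.comp_apply, (chartAt E (γ t)).left_inv hr]
  obtain ⟨-, h1⟩ := sym_hb_exp (g := g) (p := p) hη
  obtain ⟨h2, h3⟩ := sym_hb_exp (g := g) (p := p) hη.neg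
  have e : (g.exp p ∘ fun t => lg g p (γ t)) = γ := funext fun t => (lg_spec g p (γ t)).1
  rw [e] at h1
  refine (rdist_le_length g h2).trans_eq ?_
  rw [length_eq, length_eq]
  refine intervalIntegral.integral_congr fun t _ => ?_
  rw [h1, h3, hS _ ((lg_spec g p (γ t)).2.trans_lt (hd t)), deriv.fun_neg, map_neg,
    ← neg_one_smul ℝ (dexp g p _ _), nrm_smul, abs_neg, abs_one, one_mul]

theorem refl_seg (h : Bl g D) (hS : Sym g D p) (x : M) (u : E) {a b : ℝ} (hab : a ≤ b)
    (hd : ∀ t ∈ Icc a b, rdist g p (g.geo x u t) < D) :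
    rdist g (refl g p (g.geo x u a)) (refl g p (g.geo x u b)) ≤ (b - a) * nrm g x u := by
  have hφ : ContDiff ℝ 1 fun r => a + (b - a) * smoothTransition r :=
    contDiff_const.add (contDiff_const.mul (smoothTransition.contDiff (n := 1)))
  have hm : Monotone fun r => a + (b - a) * smoothTransition r := fun r s hrs =>
    add_le_add le_rfl (mul_le_mul_of_nonneg_left (smoothTransition.monotone hrs) (sub_nonneg.2 hab))
  have h1 := sym_hb_len h hS (c1_comp (c1_geo g x u) hφ) fun t => hd _ ⟨by
    nlinarith [smoothTransition.nonneg t], by nlinarith [smoothTransition.le_one t]⟩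
  rw [length_eq, int_reparam_curve g (c1_geo g x u) hφ hm] at h1
  simpa [spd_geo, smoothTransition.zero, smoothTransition.one] using h1

end Vale.Agent.P231
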